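import Vale.Agent.P093.H193.Mark

/-!
Comparison against diagonal matrices of functions of small trace, and its consequence for the
homological order of the iterated covers. (The proofs of `exists_core`, `exists_family`,
`dyn_cover`, with markers in place of minimality and a weaker comparison hypothesis.)
-/

open Filter Topology Set
open scoped ENNReal ComplexOrder

namespace Vale.Agent.P093.H193

open Vale.Agent.P093.Hom

/-- comparison of diagonal `n × n` matrices of functions of trace `< s₀` with matrices of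
functions -/
def CmpHyp {X : Type*} [TopologicalSpace X] [CompactSpace X] {A : Type*} [CStarAlgebra A]
    [PartialOrder A] [StarOrderedRing A] (π : C(X, ℂ) →⋆ₐ[ℂ] A) (n : ℕ) (s₀ r : ℝ) : Prop :=
  ∀ (m : ℕ) (g : Fin n → C(X, ℝ)) (β : Fin m → Fin m → C(X, ℂ)), (∀ l x, 0 ≤ g l x) →
    (∀ l x, g l x ≤ 1) → (∀ x, (Matrix.of fun k k' => β k k' x).PosSemidef) →
    (∀ x, (1 - Matrix.of fun k k' => β k k' x).PosSemidef) →
    (∀ τ : TracialState A, dTau τ (diagM π (fun l => cf (g l))) < s₀) →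
    (∀ τ : TracialState A, dTau τ (diagM π (fun l => cf (g l))) + r < dTau τ (fullM π β)) →
    CuntzLE (diagM π (fun l => cf (g l))) (fullM π β)

theorem cmpHyp_of_bound {X : Type*} [TopologicalSpace X] [CompactSpace X] [T2Space X]
    {A : Type*} [CStarAlgebra A] [PartialOrder A] [StarOrderedRing A] {r : ℝ}
    (hr : IsComparisonBound A r) (π : C(X, ℂ) →⋆ₐ[ℂ] A) (n : ℕ) (s₀ : ℝ) : CmpHyp π n s₀ r :=
  fun m g β hg0 _ hβ _ _ h2 =>
    hr.2 n m _ _ (diagM_nonneg π g hg0) (fullM_nonneg π β hβ) h2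

set_option backward.isDefEq.respectTransparency false in
theorem exists_coreM {X : Type*} [TopologicalSpace X] [CompactSpace X] [T2Space X]
    {A : Type*} [CStarAlgebra A] [PartialOrder A] [StarOrderedRing A] {h : X ≃ₜ X}
    (hfree : ∀ (k : ℤ) (x : X), k ≠ 0 → (h ^ k) x ≠ x)
    {π : C(X, ℂ) →⋆ₐ[ℂ] A} {u : A} (hA : IsCovariantPair h π u) {n m : ℕ} {s₀ r : ℝ}
    (hcmp : CmpHyp π n s₀ r)
    (g G : Fin n → C(X, ℝ)) (β : Fin m → Fin m → C(X, ℂ)) (r' s₁ : ℝ) (N₀ : ℕ) (hN₀ : 0 < N₀)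
    (hr' : r < r') (hs₁ : s₁ < s₀)
    (hg0 : ∀ l x, 0 ≤ g l x) (hg1 : ∀ l x, g l x ≤ 1) (hG0 : ∀ l x, 0 ≤ G l x)
    (hG : ∀ l x, g l x ≠ 0 → 1 ≤ G l x)
    (hβ : ∀ x, (Matrix.of fun k k' => β k k' x).PosSemidef)
    (hβ1 : ∀ x, (1 - Matrix.of fun k k' => β k k' x).PosSemidef)
    (hav0 : ∀ x, ∑ j ∈ Finset.range N₀, ∑ l, G l ((h ^ (j : ℤ)) x) ≤ s₁ * N₀)
    (hav : ∀ x, ∑ j ∈ Finset.range N₀, ∑ l, G l ((h ^ (j : ℤ)) x) + r' * N₀ ≤
      ∑ j ∈ Finset.range N₀, ∑ k, (β k k ((h ^ (j : ℤ)) x)).re) :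
    ∃ (R : ℕ) (K : Fin m → Fin n → ℤ → ℤ → C(X, ℂ)), ∀ (x0 : X) (I : Finset ℤ)
      (z : ℤ → Fin n → ℂ), (∀ j ∈ I, ∀ l, z j l ≠ 0 → 3 / 4 ≤ g l ((h ^ j) x0)) →
      (∀ (i : ℤ) (κ : Fin m), ∑ κ', β κ κ' ((h ^ i) x0) *
        (∑ l, ∑ j ∈ I, if i ∈ Finset.Icc (j - (R:ℤ)) (j + R) then K κ' l i j x0 * z j l else 0)
          = 0) →
      ∀ j ∈ I, ∀ l, z j l = 0 := by
  obtain ⟨hπ, hu1, hu2, hcov, hd⟩ := hA
  obtain ⟨Λ, hΛ, -⟩ := exists_lam hfree hπ hu1 hu2 hcov hd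
  have hle : CuntzLE (diagM π (fun l => cf (g l))) (fullM π β) := by
    refine hcmp m g β hg0 hg1 hβ hβ1 (fun τ => ?_) fun τ => ?_
    · have h1 := dTau_diag_le' π τ g G hg0 hg1 hG0 hG
      have h3 := trace_average' π h hu1 hu2 hcov τ (∑ l, G l) (ContinuousMap.const X s₁) 0 N₀ hN₀
        (fun x => by
          have := hav0 x
          simp only [ContinuousMap.sum_apply, ContinuousMap.const_apply, Finset.sum_const,
            Finset.card_range, nsmul_eq_mul, zero_mul, add_zero]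
          linarith)
      have h4 : (τ.toFun (π (cf (ContinuousMap.const X s₁)))).re = s₁ := by
        have e : cf (ContinuousMap.const X s₁) = ((s₁ : ℝ) : ℂ) • (1 : C(X, ℂ)) := by
          ext x
          simp [cf_apply]
        rw [e, map_smul, map_smul, map_one, τ.map_one, smul_eq_mul, mul_one, Complex.ofReal_re]
      linarith
    · have h1 := dTau_diag_le' π τ g G hg0 hg1 hG0 hG
      have h2 := traceEval_le_dTau τ (fullM_nonneg π β hβ) (fullM_le_one π β hβ1)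
      rw [traceEval_full' π τ β hβ] at h2
      have h3 := trace_average' π h hu1 hu2 hcov τ (∑ l, G l) (trFun β) r' N₀ hN₀ (fun x => by
        have := hav x
        simp only [ContinuousMap.sum_apply, trFun_apply]
        exact this)
      linarith
  exact core h β g (cuntzLE_map Λ hΛ _ β hle)

open scoped Classical in
theorem exists_familyM {X : Type*} [MetricSpace X] [CompactSpace X]
    {A : Type*} [CStarAlgebra A] [PartialOrder A] [StarOrderedRing A] {h : X ≃ₜ X}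
    (hmin : HasMarkers h) {π : C(X, ℂ) →⋆ₐ[ℂ] A} {u : A} (hA : IsCovariantPair h π u) {n : ℕ}
    (hn1 : 1 ≤ n) {s₀ r : ℝ} (hs₀n : s₀ ≤ n) (hcmp : CmpHyp π n s₀ r)
    {κ t L : ℕ} (hL : 0 < L) (ω : C(X, ℝ)) (hω0 : ∀ x, 0 ≤ ω x) (hω1 : ∀ x, ω x ≤ 1)
    {ε : ℝ} (hcount : ∃ C : ℝ, ∀ x (N : ℕ), (1 - ε) * N / L - C ≤
      ((Finset.range N).filter fun i : ℕ => ω ((h ^ (i : ℤ)) x) = 1).card)
    (ψ : Fin t → ℕ → C(X, ℝ)) {s : ℝ} (hs0 : 0 ≤ s) (hss : s < s₀)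
    (hs : s + r < κ * t * (1 - ε) / L) :
    ∃ (R : ℕ) (C : ℝ), ∀ (N a : ℕ), (2 * κ * a + 1 : ℝ) ≤ s * N - C →
      ∃ F : Fin (N + 2 * R) → Fin t → Fin κ → Fin 2 → X → (Fin (2 * κ * a) → Fin 2 → ℂ) → ℂ,
        (∀ i G k e, Continuous fun z : X × (Fin (2 * κ * a) → Fin 2 → ℂ) => F i G k e z.1 z.2) ∧
        (∀ i G k e x, MultiHom (F i G k e x)) ∧
        (∀ i G k e x (σ : Equiv.Perm (Fin (2 * κ * a))) q,
          F i G k e x (fun j => q (σ j)) = F i G k e x q) ∧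
        (∀ x q, (∀ j, q j ≠ 0) → ∃ i G k e, F i G k e x q ≠ 0) ∧
        (∀ (i : Fin (N + 2 * R)) G k e x q, F i G k e x q ≠ 0 → 3 / 4 < ω ((h ^ ((i : ℕ) - (R : ℤ) : ℤ)) x)) ∧
        ∀ (i : Fin (N + 2 * R)) G (k : Fin κ) x q, let x' := (h ^ ((i : ℕ) - (R : ℤ) : ℤ)) x
          rho k / 2 ≤ rad (nF (fun j x => ψ G j x - 1 / 2) rho k)
            (fun x => ψ G (2 * k + 1) x - 1 / 2) (fun x => ψ G (2 * k + 2) x - 1 / 2) x' →
          HopfRel (nF (fun j x => ψ G j x - 1 / 2) rho k x')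
            (ψ G (2 * k + 1) x' - 1 / 2) (ψ G (2 * k + 2) x' - 1 / 2)
            (F i G k 0 x q) (F i G k 1 x q) := by
  have hfree : ∀ (k : ℤ) (x : X), k ≠ 0 → (h ^ k) x ≠ x := hmin.free
  obtain ⟨C₀, hC₀⟩ := hcount
  obtain ⟨M, hM⟩ : ∃ M : ℝ, M = κ * t * (1 - ε) / L := ⟨_, rfl⟩
  obtain ⟨δ, hδ0, hδ, hδs⟩ : ∃ δ : ℝ, 0 < δ ∧ 3 * δ ≤ M - s - r ∧ 3 * δ ≤ s₀ - s := by
    refine ⟨min ((M - s - r) / 3) ((s₀ - s) / 3), lt_min ?_ (by linarith), ?_, ?_⟩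
    · rw [hM]; linarith
    · have := min_le_left ((M - s - r) / 3) ((s₀ - s) / 3)
      linarith
    · have := min_le_right ((M - s - r) / 3) ((s₀ - s) / 3)
      linarith
  obtain ⟨g, G, hg0, hg1, hG0, hG, C₁, hC₁⟩ := exists_scalarM h hmin hs0 (s' := s + δ)
    (by linarith) hn1 (by linarith)
  obtain ⟨β', hβ'1, hβ'2, hβ'3, hβ'4, hβ'5, hβ'6⟩ := exists_b (κ := κ) ω hω0 hω1 ψ
  obtain ⟨m, E, -⟩ : ∃ (m : ℕ) (E : Fin t × Fin κ × Fin 2 ≃ Fin m), True :=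
    ⟨_, Fintype.equivFin _, trivial⟩
  let β : Fin m → Fin m → C(X, ℂ) := fun k k' => β' (E.symm k) (E.symm k')
  obtain ⟨N₀, hN₀⟩ := exists_nat_gt (max ((C₁ + t * κ * C₀) / δ) (C₁ / δ))
  have hN₀1 := (le_max_left _ _).trans_lt hN₀
  have hN₀2 := (le_max_right _ _).trans_lt hN₀
  have hN₀' : C₁ + t * κ * C₀ ≤ δ * (N₀ + 1 : ℕ) := by
    rw [div_lt_iff₀ hδ0] at hN₀1
    push_cast
    nlinarith
  have hN₀'' : C₁ ≤ δ * (N₀ + 1 : ℕ) := by
    rw [div_lt_iff₀ hδ0] at hN₀2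
    push_cast
    nlinarith
  have b1 : ∀ x, (Matrix.of fun k k' => β k k' x).PosSemidef := fun x =>
    (hβ'1 x).submatrix E.symm
  have b2 : ∀ x, (1 - Matrix.of fun k k' => β k k' x).PosSemidef := by
    intro x
    have h1 := (hβ'2 x).submatrix E.symm
    have h2 : (1 - Matrix.of fun k k' => β k k' x) =
        (1 - Matrix.of fun k k' => β' k k' x).submatrix E.symm E.symm := by
      ext i j
      simp [β, Matrix.one_apply]
    rw [h2]; exact h1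
  have b3 : ∀ x, ∑ j ∈ Finset.range (N₀ + 1), ∑ l, G l ((h ^ (j : ℤ)) x) +
      (r + δ) * (N₀ + 1 : ℕ) ≤
      ∑ j ∈ Finset.range (N₀ + 1), ∑ k, (β k k ((h ^ (j : ℤ)) x)).re := by
    intro x
    have h1 := (hC₁ x (N₀ + 1)).1
    have h2 := hC₀ x (N₀ + 1)
    have h3 : ∀ j : ℕ, (if ω ((h ^ (j : ℤ)) x) = 1 then (t * κ : ℝ) else 0) ≤
        ∑ k, (β k k ((h ^ (j : ℤ)) x)).re := by
      intro j
      have e : ∑ k, (β k k ((h ^ (j : ℤ)) x)).re = ∑ k, (β' k k ((h ^ (j : ℤ)) x)).re :=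
        Equiv.sum_comp E.symm fun k => (β' k k ((h ^ (j : ℤ)) x)).re
      rw [e]
      split_ifs with h4
      · exact hβ'3 _ h4
      · exact hβ'4 _
    have h5 := Finset.sum_le_sum (s := Finset.range (N₀ + 1)) fun j _ => h3 j
    rw [← Finset.sum_filter, Finset.sum_const, nsmul_eq_mul] at h5
    have h6 : (t * κ : ℝ) * ((1 - ε) * (N₀ + 1 : ℕ) / L - C₀) ≤
        (((Finset.range (N₀ + 1)).filter fun i : ℕ => ω ((h ^ (i : ℤ)) x) = 1).card : ℝ) *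
          (t * κ) := by
      rw [mul_comm]
      exact mul_le_mul_of_nonneg_right h2 (by positivity)
    have h7 : (t * κ : ℝ) * ((1 - ε) * (N₀ + 1 : ℕ) / L - C₀) =
        M * (N₀ + 1 : ℕ) - t * κ * C₀ := by
      rw [hM]; ring
    have h8 : (s + r + 3 * δ) * (N₀ + 1 : ℕ) ≤ M * (N₀ + 1 : ℕ) :=
      mul_le_mul_of_nonneg_right (by linarith) (by positivity)
    rw [h7] at h6
    have h9 : (s + r + 3 * δ) * ((N₀ + 1 : ℕ) : ℝ) = s * (N₀ + 1 : ℕ) + r * (N₀ + 1 : ℕ) +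
      3 * (δ * (N₀ + 1 : ℕ)) := by ring
    linarith
  have b4 : ∀ x, ∑ j ∈ Finset.range (N₀ + 1), ∑ l, G l ((h ^ (j : ℤ)) x) ≤
      (s + 2 * δ) * (N₀ + 1 : ℕ) := by
    intro x
    have h1 := (hC₁ x (N₀ + 1)).1
    linarith
  obtain ⟨R, K, hcore⟩ := exists_coreM (β := β) hfree hA hcmp g G (r + δ) (s + 2 * δ) (N₀ + 1)
    (Nat.succ_pos _) (by linarith) (by linarith) hg0 hg1 hG0 hG b1 b2 b4 b3
  refine ⟨R, C₁, fun N a hNa => ?_⟩
  refine ⟨fun i G k e x q => ∑ κ', β' (G, k, e) κ' ((h ^ ((i : ℕ) - (R : ℤ) : ℤ)) x) *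
    famU h g K R N x q ((i : ℕ) - (R : ℤ) : ℤ) (E κ'), ?_, ?_, ?_, ?_, ?_, ?_⟩
  · intro i G k e
    refine continuous_finsetSum _ fun κ' _ => ?_
    exact ((β' (G, k, e) κ').continuous.comp ((h ^ _).continuous.comp continuous_fst)).mul
      (famU_cont h g K R N _ _)
  · intro i G k e x q c
    dsimp only
    rw [Finset.mul_sum]
    refine Finset.sum_congr rfl fun κ' _ => ?_
    rw [famU_hom]; ring
  · intro i G k e x σ q
    dsimp only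
    refine Finset.sum_congr rfl fun κ' _ => ?_
    rw [famU_symm]
  · intro x q hq
    by_contra hcon
    push Not at hcon
    have hz := hcore x (Finset.Ico (0 : ℤ) N) (famZ h g x q)
      (fun j _ l hz => famZ_ne h g x q j l hz) ?_
    · refine famZ_nonvanishing h g x q hq N (Finset.univ.filter
        (fun p : Fin N × Fin n => g p.2 ((h ^ ((p.1 : ℕ) : ℤ)) x) = 1)) ?_ ?_ hz
      · intro a ha
        exact (Finset.mem_filter.1 ha).2
      · have h1 := (hC₁ x N).2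
        have h2 : ((2 * κ * a + 1 : ℕ) : ℝ) ≤ ((Finset.univ.filter
          (fun p : Fin N × Fin n => g p.2 ((h ^ ((p.1 : ℕ) : ℤ)) x) = 1)).card : ℝ) := by
          push_cast
          linarith
        exact_mod_cast h2
    · intro i κ₁
      change ∑ κ', β κ₁ κ' ((h ^ i) x) * famU h g K R N x q i κ' = 0
      by_cases hi : i < -(R : ℤ) ∨ (N : ℤ) + R ≤ i
      · refine Finset.sum_eq_zero fun κ' _ => ?_
        rw [famU_zero h g K R N x q i κ' hi, mul_zero]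
      · push Not at hi
        obtain ⟨i', hi'⟩ : ∃ i' : Fin (N + 2 * R), i = (i' : ℕ) - (R : ℤ) := by
          refine ⟨⟨(i + R).toNat, ?_⟩, ?_⟩
          · omega
          · dsimp only
            omega
        have h1 := hcon i' (E.symm κ₁).1 (E.symm κ₁).2.1 (E.symm κ₁).2.2
        rw [← hi'] at h1
        rw [← Equiv.sum_comp E]
        simpa [β] using h1
  · intro i G k e x q hne
    obtain ⟨κ', -, hκ'⟩ := Finset.exists_ne_zero_of_sum_ne_zero hne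
    exact hβ'5 _ _ _ (left_ne_zero_of_mul hκ')
  · intro i G k x q x' hx'
    exact hβ'6 x' (fun κ' => famU h g K R N x q ((i : ℕ) - (R : ℤ) : ℤ) (E κ')) G k hx'


theorem dyn_coverC {X : Type*} [MetricSpace X] [CompactSpace X] [Nonempty X]
    {A : Type*} [CStarAlgebra A] [PartialOrder A] [StarOrderedRing A] {h : X ≃ₜ X}
    (hmin : HasMarkers h) {π : C(X, ℂ) →⋆ₐ[ℂ] A} {u : A} (hA : IsCovariantPair h π u) {n₂ : ℕ}
    (hn₂ : 1 ≤ n₂) {s₀ r : ℝ} (hs₀n : s₀ ≤ n₂) (hcmp : CmpHyp π n₂ s₀ r)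
    {𝒰 : Set (Set X)} (h𝒰 : IsFinOpenCover 𝒰) {κ L : ℕ} (hκ : 1 ≤ κ) (hL : 0 < L) {ε : ℝ}
    (hε : 0 < ε) {s : ℝ} (hs0 : 0 ≤ s) (hss : s < s₀)
    (hs : s + r < κ * ((coverDim (iterCover h 𝒰 L) + 1) / (2 * κ + 1) : ℕ) * (1 - ε) / L) :
    ∃ C' : ℝ, ∀ N a D : ℕ, (2 * κ * a + 1 : ℝ) ≤ s * N - C' →
      (coverDim (iterCover h 𝒰 L) + 1) * (N / L : ℝ) + (coverDim 𝒰 + 1) * (ε * N) + C' ≤
        D + a + 1 → HomOrderLE (iterCover h 𝒰 N) D := by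
  classical
  obtain ⟨ψ, P, hψ01, hψ, hP, hPl⟩ := exists_colours _ (isFinOpenCover_iterCover h h𝒰 L)
  obtain ⟨ψ₁, P₁, hψ₁01, hψ₁, hP₁, hPl₁⟩ := exists_colours _ h𝒰
  obtain ⟨ω, hω0, hω1, hsep, hcount⟩ := exists_towerM h hmin L hL hε
  obtain ⟨R₀, C₀, hfam⟩ := exists_familyM (κ := κ)
    (t := (coverDim (iterCover h 𝒰 L) + 1) / (2 * κ + 1)) hmin hA hn₂ hs₀n hcmp hL ω hω0 hω1
    hcount (fun G k => ψ ((G : ℕ) * (2 * κ + 1) + k)) hs0 hss hs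
  obtain ⟨C₁, hC₁⟩ := count_uncovered h hL ω hsep hε hcount
  have hU₀ : ∃ U₀, U₀ ∈ 𝒰 := by
    have h1 : (Classical.arbitrary X) ∈ ⋃₀ 𝒰 := by rw [h𝒰.2.2]; trivial
    obtain ⟨U, hU, -⟩ := h1
    exact ⟨U, hU⟩
  obtain ⟨U₀, hU₀⟩ := hU₀
  have hL' : (0 : ℝ) < L := Nat.cast_pos.mpr hL
  have e1 : (0 : ℝ) ≤ (coverDim (iterCover h 𝒰 L) + 1) * (2 * ((R₀ + L : ℕ) : ℝ) / L + 1) := by
    positivity
  have e2 : (0 : ℝ) ≤ (coverDim 𝒰 + 1) * |C₁| := by positivity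
  refine ⟨|C₀| + (coverDim (iterCover h 𝒰 L) + 1) * (2 * ((R₀ + L : ℕ) : ℝ) / L + 1) +
    (coverDim 𝒰 + 1) * |C₁|, fun N a D h1 h2 => ?_⟩
  obtain ⟨F, f1, f2, f3, f4, f5, f6⟩ := hfam N a (by
    have := le_abs_self C₀
    linarith)
  have hF : DcFam h ω (fun (G : Fin ((coverDim (iterCover h 𝒰 L) + 1) / (2 * κ + 1))) k =>
      ψ ((G : ℕ) * (2 * κ + 1) + k)) R₀ N a F :=
    ⟨f1, f2, f3, f4, f5, fun i G k x q x' hx' hrad => by
      subst hx'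
      exact f6 i G k x q hrad⟩
  obtain ⟨F', hF'⟩ := hF.extend L
  refine dc_main hκ hL (Nat.le_add_left L R₀) ω (Nat.div_mul_le_self _ _) ψ ψ₁ P P₁ hψ01 hψ₁01 hψ
    hψ₁ hP hP₁ hPl hPl₁ U₀ hU₀ F' hF' fun x => ?_
  have g1 := count_windows h hL ω hsep x (-((R₀ + L : ℕ) : ℤ)) (N + ((R₀ + L : ℕ) : ℤ)) (by omega)
  have g2 := hC₁ x N
  have g3 := mul_le_mul_of_nonneg_left g1
    (by positivity : (0 : ℝ) ≤ (coverDim (iterCover h 𝒰 L) + 1))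
  have g4 := mul_le_mul_of_nonneg_left (g2.trans (add_le_add_right (le_abs_self C₁) _))
    (by positivity : (0 : ℝ) ≤ (coverDim 𝒰 + 1))
  have g5 : (((N + ((R₀ + L : ℕ) : ℤ) - -((R₀ + L : ℕ) : ℤ) : ℤ)) : ℝ) / L + 1 =
      (N : ℝ) / L + (2 * ((R₀ + L : ℕ) : ℝ) / L + 1) := by
    push_cast
    ring
  rw [g5] at g3
  have g6 := abs_nonneg C₀
  have g7 : ((coverDim (iterCover h 𝒰 L) + 1 : ℝ) * (((Finset.Ico (-((R₀ + L : ℕ) : ℤ))
      (N + ((R₀ + L : ℕ) : ℤ))).filter fun i => ω ((h ^ i) x) ≠ 0).card : ℝ) +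
      (coverDim 𝒰 + 1) * (((Finset.range N).filter fun j : ℕ => ∀ i : ℤ, (j : ℤ) - L < i → i ≤ j →
        ω ((h ^ i) x) < 3 / 4).card : ℝ)) ≤ D + a + 1 := by
    nlinarith [g3, g4, h2, g6]
  exact_mod_cast g7

theorem dyn_coverM {X : Type*} [MetricSpace X] [CompactSpace X] [Nonempty X]
    {A : Type*} [CStarAlgebra A] [PartialOrder A] [StarOrderedRing A] {h : X ≃ₜ X}
    (hmin : HasMarkers h) (hA : IsCrossedProduct h A) {r : ℝ} (hr : IsComparisonBound A r)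
    {𝒰 : Set (Set X)} (h𝒰 : IsFinOpenCover 𝒰) {κ L : ℕ} (hκ : 1 ≤ κ) (hL : 0 < L) {ε : ℝ}
    (hε : 0 < ε) {s : ℝ} (hs0 : 0 ≤ s)
    (hs : s + r < κ * ((coverDim (iterCover h 𝒰 L) + 1) / (2 * κ + 1) : ℕ) * (1 - ε) / L) :
    ∃ C' : ℝ, ∀ N a D : ℕ, (2 * κ * a + 1 : ℝ) ≤ s * N - C' →
      (coverDim (iterCover h 𝒰 L) + 1) * (N / L : ℝ) + (coverDim 𝒰 + 1) * (ε * N) + C' ≤
        D + a + 1 → HomOrderLE (iterCover h 𝒰 N) D := by
  obtain ⟨π, u, hp⟩ := hA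
  obtain ⟨n, hn⟩ := exists_nat_ge (s + 1)
  have hn1 : 1 ≤ n := by
    have : (1 : ℝ) ≤ n := by linarith
    exact_mod_cast this
  exact dyn_coverC hmin (π := π) (u := u) hp hn1 hn (cmpHyp_of_bound hr π n (s + 1)) h𝒰 hκ hL hε hs0
    (by linarith) hs

end Vale.Agent.P093.H193
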