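import Vale.Agent.P093.FinalDefs

/-!
The marker property, crossed products with their copy of `C(X)`, and matrices of functions inside
a crossed product.
-/

open Set
open scoped ENNReal ComplexOrder

namespace Vale.Agent.P093.H193

section

variable {X : Type*} [TopologicalSpace X]

/-- The marker property: for every `n` there is an open set `V` which is disjoint from
`h⁻¹ V, …, h^{-(n-1)} V` and whose translates by the powers of `h` cover `X`. -/
def HasMarkers (h : X ≃ₜ X) : Prop :=
  ∀ n : ℕ, ∃ V : Set X, IsOpen V ∧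
    (∀ k : ℕ, 0 < k → k < n → ∀ x ∈ V, (h ^ k) x ∉ V) ∧ ∀ x, ∃ k : ℤ, (h ^ k) x ∈ V

end

section

variable {X : Type*} [TopologicalSpace X] [CompactSpace X] {A : Type*} [CStarAlgebra A]

/-- `A` is a crossed product of `C(X)` by `h`, and `p` is its copy of `C(X)`: `p` is an injective
unital star homomorphism and `A` is generated by `p(C(X))` and a unitary `u` with
`u p(f) u* = p(f ∘ h⁻¹)`. -/
def IsCrossedVia (h : X ≃ₜ X) (p : C(X, ℂ) → A) : Prop :=
  ∃ (π : C(X, ℂ) →⋆ₐ[ℂ] A) (u : A), ⇑π = p ∧ IsCovariantPair h p u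

/-- the `1 × 1` matrix `p(g)` of a real function `g` -/
noncomputable def funMat (p : C(X, ℂ) → A) (g : C(X, ℝ)) : CStarMatrix (Fin 1) (Fin 1) A :=
  CStarMatrix.ofMatrix fun _ _ => p ⟨fun x => (g x : ℂ), by fun_prop⟩

/-- the `m × m` matrix `(p(b i j))` of a matrix of functions -/
noncomputable def matMat (p : C(X, ℂ) → A) {m : ℕ} (b : Fin m → Fin m → C(X, ℂ)) :
    CStarMatrix (Fin m) (Fin m) A :=
  CStarMatrix.ofMatrix fun i j => p (b i j)

/-- `0 ≤ b(x) ≤ 1` for all `x` -/
def IsPosContraction {m : ℕ} (b : Fin m → Fin m → C(X, ℂ)) : Prop :=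
  ∀ x, (Matrix.of fun i j => b i j x).PosSemidef ∧
    (1 - Matrix.of fun i j => b i j x).PosSemidef

end

end Vale.Agent.P093.H193
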