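import Vale.Agent.P093.HB.H6
import Vale.Agent.P093.H193.Comp

/-!
The inequalities for homeomorphisms with the marker property. (The proofs of `fi_step`,
`cover_key`, `cover_bound`, `detected_bound`, with markers in place of minimality.)
-/

open Filter Topology Set
open scoped ENNReal

namespace Vale.Agent.P093.H193

open Vale.Agent.P093.Hom

/-- The estimate for one length `L`. -/
theorem fi_stepM {X : Type*} [MetricSpace X] [CompactSpace X] [Nonempty X]
    {A : Type*} [CStarAlgebra A] [PartialOrder A] [StarOrderedRing A] {h : X ≃ₜ X}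
    (hmin : HasMarkers h) (hA : IsCrossedProduct h A) {r : ℝ} (hr : IsComparisonBound A r)
    {𝒰 : Set (Set X)} (h𝒰 : IsFinOpenCover 𝒰) {κ L : ℕ} (hκ : 1 ≤ κ) (hL : 0 < L) {θ : ℝ}
    (hθ : 0 < θ) :
    κ * (((coverDim (iterCover h 𝒰 L) + 1) / (2 * κ + 1) : ℕ) : ℝ) / L ≤ r + θ ∨
      2 * κ * (limsup (fun N : ℕ => (homOrder (iterCover h 𝒰 N) : ℝ≥0∞) / N) atTop).toReal ≤
        2 * κ * ((coverDim (iterCover h 𝒰 L) + 1 : ℝ) / L) -
          κ * (((coverDim (iterCover h 𝒰 L) + 1) / (2 * κ + 1) : ℕ) : ℝ) / L + r + θ := by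
  set n := coverDim (iterCover h 𝒰 L) with hn
  set n₁ := coverDim 𝒰 with hn₁
  set t := (n + 1) / (2 * κ + 1) with ht
  have htn : (t : ℝ) ≤ n + 1 := by exact_mod_cast Nat.div_le_self (n + 1) (2 * κ + 1)
  have hκ' : (1 : ℝ) ≤ κ := Nat.one_le_cast.2 hκ
  have hL' : (0 : ℝ) < L := Nat.cast_pos.2 hL
  have hr0 : 0 ≤ r := hr.1
  have ht0 : (0 : ℝ) ≤ t := Nat.cast_nonneg t
  have hn10 : (0 : ℝ) ≤ n₁ := Nat.cast_nonneg n₁
  set b : ℝ := κ * (t : ℝ) / L with hb
  have hb0 : 0 ≤ b := by positivity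
  by_cases hbr : b ≤ r + θ
  · exact Or.inl hbr
  right
  push Not at hbr
  set Kc : ℝ := b + 2 * κ * (n₁ + 1) with hKc
  have hKc0 : 0 < Kc := by positivity
  set ε : ℝ := min (1 / 2) (θ / (2 * Kc)) with hε
  have hε0 : 0 < ε := lt_min (by norm_num) (by positivity)
  have hε1 : ε ≤ 1 / 2 := min_le_left _ _
  have hεK : ε * Kc ≤ θ / 2 := by
    have h1 : ε ≤ θ / (2 * Kc) := min_le_right _ _
    rw [le_div_iff₀ (by positivity)] at h1
    linarith
  have hεb : ε * b + 2 * κ * (n₁ + 1) * ε ≤ θ / 2 := by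
    rw [hKc] at hεK
    linarith
  have hεb' : 0 ≤ 2 * κ * (n₁ + 1) * ε := by positivity
  set s : ℝ := b * (1 - ε) - r - θ / 2 with hs
  have hs0 : 0 < s := by
    rw [hs]
    linarith
  have hsb : s ≤ b := by
    have : 0 ≤ ε * b := by positivity
    rw [hs]
    linarith
  have hs1 : s + r < κ * ((n + 1) / (2 * κ + 1) : ℕ) * (1 - ε) / L := by
    have e : (κ * ((n + 1) / (2 * κ + 1) : ℕ) * (1 - ε) / L : ℝ) = b * (1 - ε) := by
      rw [hb, ht]
      ring
    rw [e, hs]
    linarith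
  obtain ⟨C', hC'⟩ := dyn_coverM hmin hA hr h𝒰 hκ hL hε0 hs0.le hs1
  rw [← hn, ← hn₁] at hC'
  set β : ℝ := (n + 1) / L + (n₁ + 1) * ε - s / (2 * κ) with hβ
  have hbn : b ≤ κ * ((n + 1) / L) := by
    rw [hb, mul_div_assoc]
    exact mul_le_mul_of_nonneg_left (div_le_div_of_nonneg_right htn hL'.le) (by positivity)
  have hy0 : (0 : ℝ) ≤ (n + 1) / L := by positivity
  have hβ0 : 0 ≤ β := by
    have h1 : s / (2 * κ) ≤ (n + 1) / L := by
      rw [div_le_iff₀ (by positivity)]
      have h3 : 0 ≤ κ * ((n + 1) / L : ℝ) := by positivity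
      linarith
    have h2 : 0 ≤ (n₁ + 1) * ε := by positivity
    rw [hβ]
    linarith
  have hz := fi_limsup_le (f := fun N => homOrder (iterCover h 𝒰 N)) (β := β)
    (C := 2 * |C'| + 2) hβ0 (N₀ := ⌈(|C'| + 1) / s⌉₊) fun N hN => by
      have hN1 : |C'| + 1 ≤ s * N := by
        have h1 := Nat.ceil_le.1 hN
        rw [div_le_iff₀ hs0] at h1
        linarith
      have hC1 := le_abs_self C'
      have hC2 := neg_abs_le C'
      have hx0 : 0 ≤ (s * N - C' - 1) / (2 * κ) := div_nonneg (by linarith) (by positivity)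
      have ha := Nat.floor_le hx0
      have ha' := Nat.lt_floor_add_one ((s * N - C' - 1) / (2 * κ))
      set a := ⌊(s * N - C' - 1) / (2 * κ)⌋₊
      have h2a : (2 * κ * a + 1 : ℝ) ≤ s * N - C' := by
        rw [le_div_iff₀ (by positivity)] at ha
        linarith
      set x : ℝ := (n + 1) * (N / L : ℝ) + (n₁ + 1) * (ε * N) + C' - a - 1 with hx
      have hD := Nat.le_ceil x
      have hle : homOrder (iterCover h 𝒰 N) ≤ ⌈x⌉₊ :=
        Nat.sInf_le (hC' N a ⌈x⌉₊ h2a (by linarith))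
      have hDx : (⌈x⌉₊ : ℝ) ≤ β * N + (2 * |C'| + 2) := by
        have hxb : x ≤ β * N + (2 * |C'| + 1) := by
          have e1 : (s * N - C' - 1) / (2 * κ) = s / (2 * κ) * N - (C' + 1) / (2 * κ) := by
            ring
          have e2 : (C' + 1) / (2 * κ) ≤ |C'| + 1 := by
            rw [div_le_iff₀ (by positivity)]
            have h3 : (|C'| + 1) * 1 ≤ (|C'| + 1) * (2 * κ) :=
              mul_le_mul_of_nonneg_left (by linarith) (by positivity)
            linarith
          have e3 : (n + 1) * (N / L : ℝ) = (n + 1) / L * N := by ring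
          rw [e1] at ha'
          rw [hx, e3, hβ]
          linarith
        rcases le_or_gt 0 x with h0 | h0
        · have := Nat.ceil_lt_add_one h0
          linarith
        · rw [Nat.ceil_eq_zero.2 h0.le]
          have : 0 ≤ β * N := by positivity
          have := abs_nonneg C'
          push_cast
          linarith
      exact (Nat.cast_le.2 hle).trans hDx
  have hz' := ENNReal.toReal_le_of_le_ofReal hβ0 hz
  set z := (limsup (fun N : ℕ => (homOrder (iterCover h 𝒰 N) : ℝ≥0∞) / N) atTop).toReal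
  have h1 : 2 * κ * z ≤ 2 * κ * β := mul_le_mul_of_nonneg_left hz' (by positivity)
  have h2 : 2 * κ * β = 2 * κ * ((n + 1) / L) + 2 * κ * (n₁ + 1) * ε - s := by
    rw [hβ]
    field_simp
  rw [h2, hs] at h1
  linarith


/-- The key estimate for one cover. -/
theorem cover_keyM {X : Type*} [MetricSpace X] [CompactSpace X] [Nonempty X]
    {A : Type*} [CStarAlgebra A] [PartialOrder A] [StarOrderedRing A] {h : X ≃ₜ X}
    (hmin : HasMarkers h) (hA : IsCrossedProduct h A) {r : ℝ} (hr : IsComparisonBound A r)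
    {κ : ℕ} (hκ : 1 ≤ κ) {𝒰 : Set (Set X)} (h𝒰 : IsFinOpenCover 𝒰) :
    2 * κ * (limsup (fun N : ℕ => (homOrder (iterCover h 𝒰 N) : ℝ≥0∞) / N) atTop).toReal -
      (2 * κ - κ / (2 * κ + 1)) *
        (limsup (fun N : ℕ => (coverDim (iterCover h 𝒰 N) : ℝ≥0∞) / N) atTop).toReal ≤ r := by
  have hzδ := fi_limsup_le_limsup h h𝒰
  set δ' := limsup (fun N : ℕ => (coverDim (iterCover h 𝒰 N) : ℝ≥0∞) / N) atTop with hδ'
  have hδfin : δ' ≠ ∞ := limsup_coverDim_ne_top h h𝒰
  have hzδ' := ENNReal.toReal_mono hδfin hzδ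
  have hδe : δ' = ENNReal.ofReal δ'.toReal := (ENNReal.ofReal_toReal hδfin).symm
  have hκ' : (1 : ℝ) ≤ κ := Nat.one_le_cast.2 hκ
  have hstep := fun (L : ℕ) (hL : 0 < L) (θ : ℝ) (hθ : 0 < θ) =>
    fi_stepM hmin hA hr h𝒰 hκ hL hθ
  set z := (limsup (fun N : ℕ => (homOrder (iterCover h 𝒰 N) : ℝ≥0∞) / N) atTop).toReal
  set δ := δ'.toReal
  have hδ0 : 0 ≤ δ := ENNReal.toReal_nonneg
  set c : ℝ := κ / (2 * κ + 1) with hc
  have hc0 : 0 ≤ c := by positivity
  have hc1 : c ≤ 1 := by
    rw [hc, div_le_one (by positivity)]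
    linarith
  have hmain : 2 * κ * z - (2 * κ - c) * δ ≤ r := by
    refine le_of_forall_pos_le_add fun θ hθ => ?_
    have hη : 0 < θ / (8 * κ) := by positivity
    set η : ℝ := θ / (8 * κ) with hηd
    have hη2 : 2 * κ * η = θ / 4 := by
      rw [hηd]
      field_simp
      norm_num
    have h1 : ∃ᶠ N : ℕ in atTop, δ - η ≤ (coverDim (iterCover h 𝒰 N) : ℝ) / N := by
      rcases lt_or_ge (δ - η) 0 with h0 | h0
      · exact Frequently.of_forall fun N => h0.le.trans (by positivity)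
      · have hlt : ENNReal.ofReal (δ - η) < δ' := by
          rw [hδe]
          exact (ENNReal.ofReal_lt_ofReal_iff (by linarith)).2 (by linarith)
        refine ((frequently_lt_of_lt_limsup (by isBoundedDefault) hlt).and_eventually
          (eventually_gt_atTop 0)).mono fun N hN => ?_
        have h2 := ENNReal.toReal_mono (ENNReal.div_ne_top (ENNReal.natCast_ne_top _)
          (Nat.cast_ne_zero.2 hN.2.ne')) hN.1.le
        rw [ENNReal.toReal_ofReal h0, ENNReal.toReal_div, ENNReal.toReal_natCast,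
          ENNReal.toReal_natCast] at h2
        exact h2
    have h2 : ∀ᶠ N : ℕ in atTop, (coverDim (iterCover h 𝒰 N) : ℝ) / N ≤ δ + η := by
      have hlt : δ' < ENNReal.ofReal (δ + η) := by
        rw [hδe]
        exact (ENNReal.ofReal_lt_ofReal_iff (by linarith)).2 (by linarith)
      refine (eventually_lt_of_limsup_lt hlt (by isBoundedDefault)).mono fun N hN => ?_
      have h3 := ENNReal.toReal_mono ENNReal.ofReal_ne_top hN.le
      rw [ENNReal.toReal_ofReal (by linarith), ENNReal.toReal_div, ENNReal.toReal_natCast,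
        ENNReal.toReal_natCast] at h3
      exact h3
    obtain ⟨L, hL1, hL2, hL3, hL0⟩ := (h1.and_eventually (h2.and
      ((eventually_ge_atTop ⌈12 * κ / θ⌉₊).and (eventually_gt_atTop 0)))).exists
    have hL' : (0 : ℝ) < L := Nat.cast_pos.2 hL0
    have hL4 : 12 * (κ / L : ℝ) ≤ θ := by
      have h3 := Nat.ceil_le.1 hL3
      rw [div_le_iff₀ hθ] at h3
      rw [← mul_div_assoc, div_le_iff₀ hL']
      linarith
    have hL5 : (1 / L : ℝ) * κ = κ / L := by ring
    set n := coverDim (iterCover h 𝒰 L) with hn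
    set t := (n + 1) / (2 * κ + 1) with ht
    have htn : ((n + 1 : ℕ) : ℝ) < ((2 * κ + 1) * (t + 1) : ℕ) :=
      Nat.cast_lt.2 (Nat.lt_mul_div_succ (n + 1) (by omega))
    push_cast at htn
    -- `κ t / L ≥ c (n+1)/L - κ/L`
    have hb : c * ((n + 1) / L) - κ / L ≤ κ * (t : ℝ) / L := by
      have e1 : c * ((n + 1) / L) - κ / L = κ * ((n + 1) / (2 * κ + 1) - 1) / L := by
        rw [hc]
        ring
      rw [e1]
      refine div_le_div_of_nonneg_right (mul_le_mul_of_nonneg_left ?_ (by positivity)) hL'.le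
      rw [sub_le_iff_le_add, div_le_iff₀ (by positivity)]
      linarith
    have hy : ((n : ℝ) + 1) / L = n / L + 1 / L := by ring
    have h1L : (0 : ℝ) ≤ 1 / L := by positivity
    rcases hstep L hL0 (θ / 4) (by positivity) with h3 | h3
    · have h4 : c * (δ - η) ≤ c * ((n + 1) / L) := by
        refine mul_le_mul_of_nonneg_left ?_ hc0
        rw [hy]
        linarith
      have h5 : c * η ≤ 2 * κ * η := mul_le_mul_of_nonneg_right (by linarith) hη.le
      have h6 : 2 * κ * z ≤ 2 * κ * δ := mul_le_mul_of_nonneg_left hzδ' (by positivity)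
      have h7 : 0 ≤ (κ / L : ℝ) := by positivity
      linarith
    · have h4 : (2 * κ - c) * ((n + 1) / L) ≤ (2 * κ - c) * (δ + η + 1 / L) := by
        refine mul_le_mul_of_nonneg_left ?_ (by linarith)
        rw [hy]
        linarith
      have h5 : 0 ≤ c * η := by positivity
      have h6 : 0 ≤ c * (1 / L) := by positivity
      have h7 : 0 ≤ (κ / L : ℝ) := by positivity
      linarith
  exact hmain


section Main

variable {X : Type*} [TopologicalSpace X] [CompactSpace X] [TopologicalSpace.MetrizableSpace X]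
  [Nonempty X] {A : Type*} [CStarAlgebra A] [PartialOrder A] [StarOrderedRing A] {h : X ≃ₜ X}

theorem cover_boundM (hmin : HasMarkers h) (hA : IsCrossedProduct h A) {𝒰 : Set (Set X)}
    (h𝒰 : IsFinOpenCover 𝒰) (κ : ℕ) :
    2 * κ * homRate h 𝒰 ≤
      radiusOfComparison A + κ * (4 * κ + 1) / (2 * κ + 1) * coverRate h 𝒰 := by
  rcases Nat.eq_zero_or_pos κ with rfl | hκ
  · simp
  let _ := TopologicalSpace.metrizableSpaceMetric X
  have hδ := coverRate_ne_top h h𝒰
  have hz := ne_top_of_le_ne_top hδ (homRate_le h h𝒰)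
  rw [← tsub_le_iff_right]
  refine le_iInf fun r => ?_
  rw [tsub_le_iff_right]
  have h1 : 2 * κ * (homRate h 𝒰).toReal - (2 * κ - κ / (2 * κ + 1)) * (coverRate h 𝒰).toReal ≤
      r.1 := cover_keyM hmin hA r.2 hκ h𝒰
  have hr0 : 0 ≤ r.1 := r.2.1
  have e : (2 * κ - κ / (2 * κ + 1) : ℝ) = κ * (4 * κ + 1) / (2 * κ + 1) := by
    field_simp
    ring
  rw [e] at h1
  have h2 : 2 * κ * (homRate h 𝒰).toReal ≤
      r.1 + κ * (4 * κ + 1) / (2 * κ + 1) * (coverRate h 𝒰).toReal := by linarith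
  have h3 := ENNReal.ofReal_le_ofReal h2
  rw [ENNReal.ofReal_add hr0 (by positivity), ENNReal.ofReal_mul (by positivity),
    ENNReal.ofReal_mul (by positivity), ENNReal.ofReal_mul (by positivity),
    ENNReal.ofReal_toReal hz, ENNReal.ofReal_toReal hδ, ENNReal.ofReal_div_of_pos (by positivity),
    ENNReal.ofReal_mul (by positivity), ENNReal.ofReal_add (by positivity) zero_le_one,
    ENNReal.ofReal_add (by positivity) zero_le_one, ENNReal.ofReal_mul (by positivity),
    ENNReal.ofReal_mul (by positivity), ENNReal.ofReal_natCast, ENNReal.ofReal_one,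
    ENNReal.ofReal_ofNat, ENNReal.ofReal_ofNat] at h3
  exact h3

theorem mean_boundM (hmin : HasMarkers h) (hA : IsCrossedProduct h A) (κ : ℕ) :
    2 * κ * homMeanDim h ≤
      radiusOfComparison A + κ * (4 * κ + 1) / (2 * κ + 1) * meanDim h := by
  rw [homMeanDim, ENNReal.mul_iSup]
  refine iSup_le fun 𝒰 => (cover_boundM hmin hA 𝒰.2 κ).trans ?_
  gcongr
  exact coverRate_le_meanDim h 𝒰.2

theorem detected_boundM (hmin : HasMarkers h) (hA : IsCrossedProduct h A)
    (hd : HomDetected h) : meanDim h / 2 ≤ radiusOfComparison A := by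
  rcases eq_or_ne (radiusOfComparison A) ∞ with hR | hR
  · rw [hR]
    exact le_top
  rw [ENNReal.div_le_iff two_ne_zero ENNReal.ofNat_ne_top]
  refine le_of_forall_lt_imp_le_of_dense fun c hc => ?_
  have hc' : c ≠ ∞ := hc.ne_top
  by_contra hcon
  push Not at hcon
  have h0 : (radiusOfComparison A).toReal * 2 < c.toReal := by
    have h1 := ENNReal.toReal_strict_mono hc' hcon
    rwa [ENNReal.toReal_mul, ENNReal.toReal_ofNat] at h1
  set R := (radiusOfComparison A).toReal with hRd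
  set c' := c.toReal
  have hR0 : 0 ≤ R := ENNReal.toReal_nonneg
  obtain ⟨κ, hκ⟩ := exists_nat_gt ((R + c') / (c' - R * 2))
  rw [div_lt_iff₀ (by linarith)] at hκ
  have hκ1 : 1 ≤ κ := by
    rcases Nat.eq_zero_or_pos κ with rfl | h1
    · simp only [Nat.cast_zero, zero_mul] at hκ
      linarith
    · exact h1
  have hκ' : (1 : ℝ) ≤ κ := Nat.one_le_cast.2 hκ1
  set θ : ℝ := 1 / (2 * κ * (2 * κ + 1)) with hθ
  have hθ0 : 0 < θ := by positivity
  have hθ1 : θ ≤ 1 := by
    rw [hθ, div_le_one (by positivity)]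
    nlinarith
  have hη : ENNReal.ofReal (1 - θ) < 1 := by
    rw [← ENNReal.ofReal_one]
    exact (ENNReal.ofReal_lt_ofReal_iff one_pos).2 (by linarith)
  obtain ⟨𝒰, h𝒰, h1, h2⟩ := hd c hc _ hη
  have hδ := coverRate_ne_top h h𝒰
  have hz := ne_top_of_le_ne_top hδ (homRate_le h h𝒰)
  have h3 := ENNReal.toReal_mono (by
    exact ENNReal.add_ne_top.2 ⟨hR, ENNReal.mul_ne_top (ENNReal.div_ne_top
      (ENNReal.mul_ne_top (ENNReal.natCast_ne_top _) (by finiteness)) (by positivity)) hδ⟩)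
    (cover_boundM hmin hA h𝒰 κ)
  rw [ENNReal.toReal_add hR (ENNReal.mul_ne_top (ENNReal.div_ne_top
      (ENNReal.mul_ne_top (ENNReal.natCast_ne_top _) (by finiteness)) (by positivity)) hδ)] at h3
  have h1' := ENNReal.toReal_strict_mono hδ h1
  have h2' := ENNReal.toReal_mono hz h2
  rw [ENNReal.toReal_mul, ENNReal.toReal_ofReal (by linarith)] at h2'
  have e1 : (2 * (κ : ℝ≥0∞) * homRate h 𝒰).toReal = 2 * κ * (homRate h 𝒰).toReal := by
    rw [ENNReal.toReal_mul, ENNReal.toReal_mul, ENNReal.toReal_ofNat, ENNReal.toReal_natCast]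
  have e2 : ((κ : ℝ≥0∞) * (4 * κ + 1) / (2 * κ + 1) * coverRate h 𝒰).toReal =
      κ * (4 * κ + 1) / (2 * κ + 1) * (coverRate h 𝒰).toReal := by
    rw [ENNReal.toReal_mul, ENNReal.toReal_div, ENNReal.toReal_mul,
      ENNReal.toReal_add (by finiteness) ENNReal.one_ne_top,
      ENNReal.toReal_add (by finiteness) ENNReal.one_ne_top, ENNReal.toReal_mul,
      ENNReal.toReal_mul, ENNReal.toReal_ofNat, ENNReal.toReal_ofNat, ENNReal.toReal_natCast,
      ENNReal.toReal_one]
  rw [e1, e2, ← hRd] at h3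
  set δ := (coverRate h 𝒰).toReal
  set z := (homRate h 𝒰).toReal
  have h4 : 2 * κ * ((1 - θ) * δ) ≤ 2 * κ * z := mul_le_mul_of_nonneg_left h2' (by positivity)
  have e3 : 2 * κ * ((1 - θ) * δ) = κ * (4 * κ + 1) / (2 * κ + 1) * δ +
      (κ - 1) * δ / (2 * κ + 1) := by
    rw [hθ]
    field_simp
    ring
  have h5 : (κ - 1) * δ / (2 * κ + 1) ≤ R := by linarith
  rw [div_le_iff₀ (by positivity)] at h5
  have h6 : (κ - 1) * c' ≤ (κ - 1) * δ := mul_le_mul_of_nonneg_left h1'.le (by linarith)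
  linarith


end Main

end Vale.Agent.P093.H193
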