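import Vale.Agent.P093.HB.H3
import Vale.Agent.P093.H193.Defs

/-!
Homeomorphisms with the marker property: no periodic points, cutoff functions, Lindenstrauss
functions, continuous towers, scalar elements. (The proofs of `exists_cutoff`, `exists_lind`,
`exists_towerA`, `exists_scalar`, with markers in place of minimality.)
-/

open Filter Topology Set
open scoped ENNReal

namespace Vale.Agent.P093.H193

open Vale.Agent.P093.Hom

section general

variable {X : Type*} [TopologicalSpace X]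

theorem HasMarkers.free {h : X ≃ₜ X} (hm : HasMarkers h) (k : ℤ) (x : X) (hk : k ≠ 0) :
    (h ^ k) x ≠ x := by
  have key : ∀ (n : ℕ), 0 < n → ∀ y : X, (h ^ n) y ≠ y := by
    intro n hn y hy
    obtain ⟨V, -, hV, hc⟩ := hm (n + 1)
    obtain ⟨j, hj⟩ := hc y
    refine hV n hn (Nat.lt_succ_self n) _ hj ?_
    have e1 : (h ^ n) ((h ^ j) y) = (h ^ j) ((h ^ n) y) := by
      have e2 : (h ^ (n : ℤ)) ((h ^ j) y) = (h ^ j) ((h ^ (n : ℤ)) y) := by
        have e3 : (h ^ (n : ℤ)) * (h ^ j) = (h ^ j) * (h ^ (n : ℤ)) := by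
          rw [← zpow_add, ← zpow_add, add_comm]
        exact congrArg (fun f : X ≃ₜ X => f y) e3
      simpa using e2
    rw [e1, hy]
    exact hj
  intro hx
  rcases lt_trichotomy k 0 with h0 | h0 | h0
  · refine key k.natAbs (by omega) x ?_
    have h1 : (h ^ (-k)) ((h ^ k) x) = x := by
      have e3 : (h ^ (-k)) * (h ^ k) = 1 := by
        rw [← zpow_add]; simp
      exact congrArg (fun f : X ≃ₜ X => f x) e3
    rw [hx] at h1
    have h2 : -k = ((k.natAbs : ℕ) : ℤ) := by omega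
    rw [h2, zpow_natCast] at h1
    exact h1
  · exact hk h0
  · refine key k.natAbs (by omega) x ?_
    have h2 : k = ((k.natAbs : ℕ) : ℤ) := by omega
    rw [h2, zpow_natCast] at hx
    exact hx

/-- markers are inherited by extensions -/
theorem HasMarkers.extension {Y : Type*} [TopologicalSpace Y] {h : X ≃ₜ X} {g : Y ≃ₜ Y}
    {p : X → Y} (hp : Continuous p) (hpg : ∀ x, p (h x) = g (p x)) (hm : HasMarkers g) :
    HasMarkers h := by
  have hk : ∀ (k : ℕ) x, p ((h ^ k) x) = (g ^ k) (p x) := by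
    intro k
    induction k with
    | zero => intro x; rfl
    | succ k ih =>
      intro x
      rw [pow_succ, pow_succ]
      change p ((h ^ k) (h x)) = (g ^ k) (g (p x))
      rw [ih, hpg]
  have hk' : ∀ (k : ℤ) x, p ((h ^ k) x) = (g ^ k) (p x) := by
    intro k x
    rcases Int.eq_nat_or_neg k with ⟨n, rfl | rfl⟩
    · rw [zpow_natCast, zpow_natCast]
      exact hk n x
    · have h1 := hk n ((h ^ (-(n : ℤ))) x)
      have h2 : (h ^ n) ((h ^ (-(n : ℤ))) x) = x := by
        have e3 : (h ^ (n : ℤ)) * (h ^ (-(n : ℤ))) = 1 := by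
          rw [← zpow_add]; simp
        have e4 := congrArg (fun f : X ≃ₜ X => f x) e3
        simpa using e4
      rw [h2] at h1
      rw [h1]
      have e3 : (g ^ (-(n : ℤ))) * (g ^ (n : ℤ)) = 1 := by
        rw [← zpow_add]; simp
      have e4 := congrArg (fun f : Y ≃ₜ Y => f (p ((h ^ (-(n : ℤ))) x))) e3
      have e5 : (g ^ (-(n : ℤ))) ((g ^ n) (p ((h ^ (-(n : ℤ))) x))) =
          p ((h ^ (-(n : ℤ))) x) := by
        simpa using e4
      exact e5.symm
  intro n
  obtain ⟨V, hVo, hV, hc⟩ := hm n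
  refine ⟨p ⁻¹' V, hVo.preimage hp, fun k hk0 hkn x hx hx' => ?_, fun x => ?_⟩
  · refine hV k hk0 hkn (p x) hx ?_
    rw [← hk]
    exact hx'
  · obtain ⟨k, hk1⟩ := hc (p x)
    refine ⟨k, ?_⟩
    rw [Set.mem_preimage, hk']
    exact hk1

end general

/-- an infinite minimal system has markers -/
theorem hasMarkers_of_minimal {X : Type*} [TopologicalSpace X] [CompactSpace X] [T2Space X]
    [Infinite X] {h : X ≃ₜ X} (hmin : IsMinimalHomeo h) : HasMarkers h := by
  intro n
  obtain ⟨w, T, hw0, hw1, hsep, hret⟩ := exists_cutoff h hmin n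
  refine ⟨{x | w x ≠ 0}, isOpen_ne_fun w.continuous continuous_const, fun k hk0 hkn x hx hx' => ?_,
    fun x => ?_⟩
  · have h1 := hsep x 0 k (by exact_mod_cast hk0) (by simpa using hx) (by simpa using hx')
    have h2 : (n : ℤ) ≤ k := by simpa using h1
    omega
  · obtain ⟨i, -, hi⟩ := hret x
    refine ⟨-(i : ℤ), ?_⟩
    rw [mem_ofPred_eq, hi]
    exact one_ne_zero

variable {X : Type*} [TopologicalSpace X] [CompactSpace X] [T2Space X]

/-- separated cutoff function with bounded backward return times -/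
theorem exists_cutoffM (h : X ≃ₜ X) (hm : HasMarkers h) (L : ℕ) :
    ∃ (w : C(X, ℝ)) (T : ℕ), (∀ x, 0 ≤ w x) ∧ (∀ x, w x ≤ 1) ∧
      (∀ x (i j : ℤ), i < j → w ((h ^ i) x) ≠ 0 → w ((h ^ j) x) ≠ 0 → (L : ℤ) ≤ j - i) ∧
      ∀ x, ∃ i : ℕ, i < T ∧ w ((h ^ (-(i : ℤ))) x) = 1 := by
  classical
  obtain ⟨V, hVo, hV, hcov⟩ := hm L
  have hW : ∀ y : V, ∃ W ∈ 𝓝 (y : X), IsClosed W ∧ W ⊆ V := fun y =>
    exists_mem_nhds_isClosed_subset (hVo.mem_nhds y.2)
  choose W hWn hWc hWV using hW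
  have h1 : (Set.univ : Set X) ⊆ ⋃ i : ℤ × V, (h ^ i.1) ⁻¹' interior (W i.2) := by
    intro x _
    obtain ⟨k, hk⟩ := hcov x
    exact Set.mem_iUnion.2 ⟨(k, ⟨_, hk⟩), mem_interior_iff_mem_nhds.2 (hWn ⟨_, hk⟩)⟩
  obtain ⟨t, ht⟩ := isCompact_univ.elim_finite_subcover _
    (fun i : ℤ × V => isOpen_interior.preimage (h ^ i.1).continuous) h1
  have hKc : IsClosed (⋃ i ∈ t, W i.2) := t.finite_toSet.isClosed_biUnion fun i _ => hWc i.2
  have hKV : (⋃ i ∈ t, W i.2) ⊆ V := by
    intro x hx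
    simp only [Set.mem_iUnion] at hx
    obtain ⟨i, -, hi⟩ := hx
    exact hWV i.2 hi
  obtain ⟨w, hw0, hw1, hw⟩ := exists_continuous_zero_one_of_isClosed (isClosed_compl_iff.2 hVo)
    hKc (Set.disjoint_left.2 fun x hx hx' => hx (hKV hx'))
  obtain ⟨T, hT⟩ : ∃ T : ℕ, ∀ x, ∃ i : ℤ, |i| ≤ T ∧ (h ^ i) x ∈ ⋃ i ∈ t, W i.2 := by
    refine ⟨∑ i ∈ t, i.1.natAbs, fun x => ?_⟩
    have := ht (Set.mem_univ x)
    simp only [Set.mem_iUnion] at this
    obtain ⟨i, hi, hx⟩ := this
    refine ⟨i.1, ?_, Set.mem_iUnion₂.2 ⟨i, hi, interior_subset hx⟩⟩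
    have := Finset.single_le_sum (f := fun i : ℤ × V => i.1.natAbs) (fun _ _ => Nat.zero_le _) hi
    have h5 : (i.1.natAbs : ℤ) = |i.1| := Int.natCast_natAbs i.1
    rw [← h5]
    exact_mod_cast this
  refine ⟨w, 2 * T + 1, fun x => (hw x).1, fun x => (hw x).2, ?_, ?_⟩
  · intro x i j hij hi hj
    by_contra hlt
    have h1 : ∀ y, w y ≠ 0 → y ∈ V := by
      intro y hy
      by_contra hyV
      exact hy (hw0 hyV)
    refine hV (j - i).toNat (by omega) (by omega) _ (h1 _ hi) ?_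
    have h2 : (h ^ (j - i).toNat) ((h ^ i) x) = (h ^ j) x := by
      have h3 : (h ^ (((j - i).toNat : ℕ) : ℤ)) ((h ^ i) x) = (h ^ j) x := by
        rw [← zpow_add_apply']
        congr 2
        omega
      rwa [zpow_natCast] at h3
    rw [h2]
    exact h1 _ hj
  · intro x
    obtain ⟨i, hi, hiW⟩ := hT ((h ^ (-(T : ℤ))) x)
    rw [abs_le] at hi
    refine ⟨((T : ℤ) - i).toNat, by omega, ?_⟩
    have h2 : (-((((T : ℤ) - i).toNat : ℕ) : ℤ)) = i + -(T : ℤ) := by omega
    rw [h2, zpow_add_apply']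
    exact hw1 hiW

/-- Lindenstrauss function: a continuous function which increases by one along orbits except
near rare visits to a small set. -/
theorem exists_lindM (h : X ≃ₜ X) (hmin : HasMarkers h) (L : ℕ) :
    ∃ (w nn : C(X, ℝ)),
      (∀ x (i j : ℤ), i < j → w ((h ^ i) x) ≠ 0 → w ((h ^ j) x) ≠ 0 → (L : ℤ) ≤ j - i) ∧
      ∀ x, |w (h x)| ≤ 1 / 2 → nn (h x) = nn x + 1 := by
  obtain ⟨w, T, hw0, hw1, hsep, hret⟩ := exists_cutoffM h hmin L
  -- sharper cutoff
  let w' : C(X, ℝ) := ⟨fun x => max 0 (2 * w x - 1), by (clear * -; fun_prop)⟩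
  have hw' : ∀ x, w' x = max 0 (2 * w x - 1) := fun x => rfl
  have hpart : ∀ k : ℕ, Continuous fun x => ∏ i ∈ Finset.range k, (1 - w' ((h ^ (-(i : ℤ))) x)) := by
    intro k
    refine continuous_finsetProd _ fun i _ => ?_
    have := (h ^ (-(i : ℤ))).continuous
    (clear * - this; fun_prop)
  let nn : C(X, ℝ) := ⟨fun x => ∑ k ∈ Finset.range (T + 1),
    ∏ i ∈ Finset.range (k + 1), (1 - w' ((h ^ (-(i : ℤ))) x)),
    continuous_finsetSum _ fun k _ => hpart (k + 1)⟩
  refine ⟨w, nn, hsep, fun x hx => ?_⟩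
  have hx0 : w' (h x) = 0 := by
    rw [hw', max_eq_left]
    have := (abs_le.1 hx).2
    linarith only [this]
  change ∑ k ∈ Finset.range (T + 1),
    ∏ i ∈ Finset.range (k + 1), (1 - w' ((h ^ (-(i : ℤ))) (h x))) = ∑ k ∈ Finset.range (T + 1),
    ∏ i ∈ Finset.range (k + 1), (1 - w' ((h ^ (-(i : ℤ))) x)) + 1
  have h1 : ∀ k : ℕ, ∏ i ∈ Finset.range (k + 1), (1 - w' ((h ^ (-(i : ℤ))) (h x))) =
      ∏ i ∈ Finset.range k, (1 - w' ((h ^ (-(i : ℤ))) x)) := by
    intro k
    rw [Finset.prod_range_succ']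
    have h2 : (1 - w' ((h ^ (-((0 : ℕ) : ℤ))) (h x))) = 1 := by
      have : (h ^ (-((0 : ℕ) : ℤ))) (h x) = h x := by simp only [CharP.cast_eq_zero, neg_zero, zpow_ofNat, pow_zero, Homeomorph.one_apply]
      rw [this, hx0, sub_zero]
    rw [h2, mul_one]
    refine Finset.prod_congr rfl fun i _ => ?_
    have h3 : (h ^ (-((i + 1 : ℕ) : ℤ))) (h x) = (h ^ (-(i : ℤ))) x := by
      have h4 : h x = (h ^ (1 : ℤ)) x := by rw [zpow_one]
      rw [h4, ← zpow_add_apply']
      congr 2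
      push_cast
      ring
    rw [h3]
  simp_rw [h1]
  rw [Finset.sum_range_succ']
  rw [Finset.prod_range_zero]
  congr 1
  rw [Finset.sum_range_succ]
  -- the last term vanishes
  obtain ⟨i, hiT, hi⟩ := hret x
  have h5 : ∏ i ∈ Finset.range (T + 1), (1 - w' ((h ^ (-(i : ℤ))) x)) = 0 := by
    refine Finset.prod_eq_zero (Finset.mem_range.2 (by omega : i < T + 1)) ?_
    rw [hw', hi]
    norm_num
  rw [h5, add_zero]

open scoped Classical in
theorem exists_towerM {X : Type*} [MetricSpace X] [CompactSpace X] (h : X ≃ₜ X)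
    (hmin : HasMarkers h) (L : ℕ) (hL : 0 < L) {ε : ℝ} (hε : 0 < ε) :
    ∃ ω : C(X, ℝ), (∀ x, 0 ≤ ω x) ∧ (∀ x, ω x ≤ 1) ∧
      (∀ x (i j : ℤ), i < j → ω ((h ^ i) x) ≠ 0 → ω ((h ^ j) x) ≠ 0 → (L : ℤ) ≤ j - i) ∧
      ∃ C : ℝ, ∀ x (N : ℕ), (1 - ε) * N / L - C ≤
        ((Finset.range N).filter fun i : ℕ => ω ((h ^ (i : ℤ)) x) = 1).card := by
  have hL' : (0 : ℝ) < L := by exact_mod_cast hL
  obtain ⟨q, hq⟩ := exists_nat_ge (6 / ε + 2)
  have hq2 : 2 ≤ q := by
    have : (2 : ℝ) ≤ q := by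
      have := div_pos (show (0 : ℝ) < 6 by norm_num) hε
      linarith
    exact_mod_cast this
  obtain ⟨c, rfl⟩ : ∃ c, q = c + 2 := ⟨q - 2, by omega⟩
  obtain ⟨n, hn⟩ : ∃ n, n = (c + 2) * L + 1 := ⟨_, rfl⟩
  have hn0 : 0 < n := by omega
  obtain ⟨H, hH⟩ := exists_nat_ge (2 * L * (c + 1) * (L + 1) / ε + 1)
  have hH0 : 0 < H := by
    have : (0 : ℝ) < H := lt_of_lt_of_le (by positivity) hH
    exact_mod_cast this
  obtain ⟨w, nn, hsep, hnn⟩ := exists_lindM h hmin H
  obtain ⟨ω, hω⟩ := tw_def h L (c + 2) w nn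
  refine ⟨ω, fun x => (tw_nonneg hω x).1, fun x => (tw_nonneg hω x).2, tw_sep hnn hω,
    c + (c + 1) * (L + 1) * (L + 1), fun x N => ?_⟩
  -- resets
  let R : ℕ → Prop := fun j => w ((h ^ (j : ℤ)) x) ≠ 0
  let A : ℕ → Prop := fun j => ∃ k ≤ L, R (j + k)
  let s : ℕ → ℝ := fun j => ((c + 2 : ℕ) : ℝ) * nn ((h ^ (j : ℤ)) x)
  let P : ℕ → Prop := fun j => ω ((h ^ (j : ℤ)) x) = 1
  let P' : ℕ → Prop := fun j => P j ∨ A j
  have hstep : ∀ j, ¬ A (j + 1) → s (j + 1) = s j + ((c + 2 : ℕ) : ℝ) := by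
    intro j hj
    have h1 : w ((h ^ ((j + 1 : ℕ) : ℤ)) x) = 0 := by
      by_contra h1
      exact hj ⟨0, Nat.zero_le _, h1⟩
    have h2 : (((j + 1 : ℕ) : ℤ)) = (j : ℤ) + 1 := by push_cast; ring
    rw [h2, tw_zpow_succ] at h1
    have h3 := hnn _ (show |w (h ((h ^ (j : ℤ)) x))| ≤ 1 / 2 by rw [h1, abs_zero]; norm_num)
    show ((c + 2 : ℕ) : ℝ) * nn ((h ^ ((j + 1 : ℕ) : ℤ)) x) = _
    rw [h2, tw_zpow_succ, h3]
    ring
  have hP : ∀ j, (∃ k : ℤ, (1 : ℝ) ≤ s j - n * k ∧ s j - n * k ≤ 1 + c) → P' j := by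
    rintro j ⟨k, h1, h2⟩
    by_cases hA : A j
    · exact Or.inr hA
    · left
      show ω ((h ^ (j : ℤ)) x) = 1
      rw [hω]
      have h3 : arc ((c + 2) * L + 1) 1 (((c + 2 : ℕ) : ℝ) - 2) 1
          (((c + 2 : ℕ) : ℝ) * nn ((h ^ (j : ℤ)) x)) = 1 := by
        rw [← hn]
        refine arc_eq_one one_pos k h1 ?_
        refine h2.trans (le_of_eq ?_)
        push_cast
        ring
      rw [h3, one_mul]
      refine Finset.prod_eq_one fun k hk => ?_
      rw [Finset.mem_Icc] at hk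
      have h4 : w ((h ^ (k : ℤ)) ((h ^ (j : ℤ)) x)) = 0 := by
        by_contra h4
        refine hA ⟨k, hk.2, ?_⟩
        show w ((h ^ ((j + k : ℕ) : ℤ)) x) ≠ 0
        rw [← zpow_add_apply'] at h4
        have h5 : (((j + k : ℕ) : ℤ)) = (k : ℤ) + j := by push_cast; ring
        rw [h5]
        exact h4
      rw [h4, abs_zero]
      norm_num
  have hcn : c ≤ n := by
    have := Nat.mul_le_mul_left (c + 2) hL
    omega
  have h1 := tw_block hn hstep hcn 1 P' hP 0 (N / n)
  have hNn : n * (N / n) ≤ N := Nat.mul_div_le N n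
  have h2 : ((Finset.Ico 0 (0 + n * (N / n))).filter P').card ≤
      ((Finset.range N).filter P).card + ((Finset.Ico 0 N).filter A).card := by
    refine le_trans (Finset.card_le_card ?_) (Finset.card_union_le _ _)
    intro j hj
    rw [Finset.mem_filter, Finset.mem_Ico] at hj
    rw [Finset.mem_union, Finset.mem_filter, Finset.mem_filter, Finset.mem_range, Finset.mem_Ico]
    rcases hj.2 with h3 | h3
    · exact Or.inl ⟨by omega, h3⟩
    · exact Or.inr ⟨⟨Nat.zero_le _, by omega⟩, h3⟩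
  have h3 : ((Finset.Ico 0 (0 + n * (N / n))).filter A).card ≤
      ((Finset.Ico 0 N).filter A).card := by
    refine Finset.card_le_card (Finset.filter_subset_filter _ ?_)
    exact Finset.Ico_subset_Ico le_rfl (by omega)
  have h4 : H * ((Finset.Ico 0 N).filter A).card ≤ (L + 1) * (N + L + H) := by
    refine tw_sparse hH0 L N R ?_ (fun j hj => hj)
    intro i j hij hi hj
    have := hsep x i j (by exact_mod_cast hij) hi hj
    omega
  show (1 - ε) * N / L - (c + (c + 1) * (L + 1) * (L + 1)) ≤ (((Finset.range N).filter P).card : ℝ)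
  generalize ((Finset.range N).filter P).card = p at *
  generalize ((Finset.Ico 0 N).filter A).card = a at *
  generalize ((Finset.Ico 0 (0 + n * (N / n))).filter P').card = p' at *
  generalize ((Finset.Ico 0 (0 + n * (N / n))).filter A).card = a' at *
  have h5 : c * (N / n) ≤ p + (c + 1) * a := by
    have := Nat.mul_le_mul_left c h3
    linarith
  have h6 : N < n * (N / n) + n := by
    have := Nat.lt_mul_div_succ N hn0
    rwa [Nat.mul_add, Nat.mul_one] at this
  generalize N / n = e at *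
  have g1 : (c : ℝ) * ε ≥ 6 := by
    have : 6 / ε ≤ c := by push_cast at hq; linarith
    rwa [div_le_iff₀ hε] at this
  have g2 : 2 * L * ((c : ℝ) + 1) * (L + 1) ≤ H * ε := by
    have : 2 * L * ((c : ℝ) + 1) * (L + 1) / ε ≤ H := by linarith
    rwa [div_le_iff₀ hε] at this
  have hL1 : (1 : ℝ) ≤ L := by exact_mod_cast hL
  have hH1 : (1 : ℝ) ≤ H := by exact_mod_cast hH0
  have h5' : (c : ℝ) * e ≤ p + (c + 1) * a := by exact_mod_cast h5
  have h6' : (N : ℝ) ≤ n * (e + 1) := by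
    have : (N : ℝ) < n * e + n := by exact_mod_cast h6
    linarith
  have h4' : (H : ℝ) * a ≤ (L + 1) * (N + L + H) := by exact_mod_cast h4
  have hn' : (n : ℝ) = (c + 2) * L + 1 := by rw [hn]; push_cast; ring
  have hc0 : (0 : ℝ) ≤ c := Nat.cast_nonneg c
  have he0 : (0 : ℝ) ≤ e := Nat.cast_nonneg e
  have hN0 : (0 : ℝ) ≤ N := Nat.cast_nonneg N
  have k1 : (1 - ε / 2) * N ≤ c * (e + 1) * L := by
    rcases le_or_gt (1 - ε / 2) 0 with h0 | h0
    · exact (mul_nonpos_of_nonpos_of_nonneg h0 hN0).trans (by positivity)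
    · have e1 : (1 - ε / 2) * n ≤ c * L := by
        rw [hn']
        have f1 := mul_le_mul_of_nonneg_right g1.le hL'.le
        have f2 : 0 ≤ ε * (2 * (L : ℝ) + 1) := by positivity
        linarith
      calc (1 - ε / 2) * N ≤ (1 - ε / 2) * (n * (e + 1)) := mul_le_mul_of_nonneg_left h6' h0.le
        _ = ((1 - ε / 2) * n) * (e + 1) := by ring
        _ ≤ (c * L) * (e + 1) := mul_le_mul_of_nonneg_right e1 (by linarith)
        _ = c * (e + 1) * L := by ring
  have k2 : (c + 1) * a * L ≤ ε / 2 * N + (c + 1) * (L + 1) * (L + 1) * (L : ℝ) := by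
    have e1 : (H : ℝ) * ((c + 1) * a * L) ≤
        H * (ε / 2 * N + (c + 1) * (L + 1) * (L + 1) * (L : ℝ)) := by
      have e2 : (H : ℝ) * ((c + 1) * a * L) ≤ (c + 1) * L * ((L + 1) * (N + L + H)) := by
        have := mul_le_mul_of_nonneg_left h4' (show (0 : ℝ) ≤ (c + 1) * L by positivity)
        linarith
      have e3 : (c + 1) * L * (L + 1) * (N : ℝ) ≤ H * (ε / 2 * N) := by
        have := mul_le_mul_of_nonneg_right g2 hN0
        linarith
      have e4 : (L : ℝ) + H ≤ H * (L + 1) := by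
        have := mul_le_mul_of_nonneg_right hH1 hL'.le
        linarith
      have e5 : (c + 1) * L * (L + 1) * ((L : ℝ) + H) ≤ (c + 1) * L * (L + 1) * (H * (L + 1)) :=
        mul_le_mul_of_nonneg_left e4 (by positivity)
      linarith
    exact le_of_mul_le_mul_left e1 (by linarith)
  rw [sub_le_iff_le_add, div_le_iff₀ hL']
  have k3 : (c : ℝ) * (e + 1) * L ≤ (p + (c + 1) * a + c) * L := by
    refine mul_le_mul_of_nonneg_right ?_ hL'.le
    linarith
  linarith

open scoped Classical in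
/-- scalar elements: positive functions with prescribed density -/
theorem exists_scalarM {X : Type*} [MetricSpace X] [CompactSpace X] (h : X ≃ₜ X)
    (hmin : HasMarkers h) {s s' : ℝ} (hs : 0 ≤ s) (hss : s < s') {n : ℕ} (hn1' : 1 ≤ n)
    (hn : s' ≤ n) :
    ∃ (g G : Fin n → C(X, ℝ)), (∀ l x, 0 ≤ g l x) ∧ (∀ l x, g l x ≤ 1) ∧
      (∀ l x, 0 ≤ G l x) ∧ (∀ l x, g l x ≠ 0 → 1 ≤ G l x) ∧
      ∃ C : ℝ, ∀ x (N : ℕ), (∑ j ∈ Finset.range N, ∑ l, G l ((h ^ (j : ℤ)) x) ≤ s' * N + C) ∧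
        s * N - C ≤ (Finset.univ.filter
          (fun p : Fin N × Fin n => g p.2 ((h ^ ((p.1 : ℕ) : ℤ)) x) = 1)).card := by
  -- the parameters
  obtain ⟨δ, hδ, hδs⟩ : ∃ δ : ℝ, 0 < δ ∧ s' = s + 4 * δ := ⟨(s' - s) / 4, by linarith, by ring⟩
  have hn1 : (1 : ℝ) ≤ n := by exact_mod_cast hn1'
  have hn0 : (0 : ℝ) < n := by linarith
  obtain ⟨L, hLn⟩ := exists_nat_ge (n / δ)
  have hL0 : (0 : ℝ) < L := lt_of_lt_of_le (by positivity) hLn
  have hL : 0 < L := by exact_mod_cast hL0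
  have hLδ : (n : ℝ) ≤ δ * L := by rwa [div_le_iff₀' hδ] at hLn
  obtain ⟨c, hc⟩ : ∃ c : ℕ, c = ⌈(s + δ) * L / n⌉₊ := ⟨_, rfl⟩
  have hc1 : (s + δ) * L ≤ n * c := by
    have h1 : (s + δ) * L / n ≤ c := by
      rw [hc]
      exact Nat.le_ceil _
    rwa [div_le_iff₀' hn0] at h1
  have hc2 : n * (c : ℝ) ≤ (s + 2 * δ) * L := by
    have h1 : (c : ℝ) < (s + δ) * L / n + 1 := by
      rw [hc]
      exact Nat.ceil_lt_add_one (by positivity)
    have h2 : n * (c : ℝ) ≤ n * ((s + δ) * L / n + 1) := by gcongr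
    rw [mul_add, mul_div_cancel₀ _ hn0.ne'] at h2
    nlinarith
  have hcL : c ≤ L := by
    have h1 : n * (c : ℝ) ≤ n * L := by nlinarith
    exact_mod_cast le_of_mul_le_mul_left h1 hn0
  obtain ⟨ω, h0, h1, hsep, C₀, hC₀⟩ := exists_towerM h hmin L hL (ε := δ / n) (by positivity)
  -- the functions
  let ω₁ : C(X, ℝ) := ⟨fun x => max 0 (2 * ω x - 1), by fun_prop⟩
  let ω₂ : C(X, ℝ) := ⟨fun x => min 1 (2 * ω x), by fun_prop⟩
  have hcont : ∀ k : ℤ, Continuous fun x => (h ^ k) x := fun k => (h ^ k).continuous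
  let g : C(X, ℝ) := ⟨fun x => ∑ k ∈ Finset.range c, ω₁ ((h ^ (-(k : ℤ))) x),
    continuous_finsetSum _ fun k _ => ω₁.continuous.comp (hcont _)⟩
  let G : C(X, ℝ) := ⟨fun x => ∑ k ∈ Finset.range c, ω₂ ((h ^ (-(k : ℤ))) x),
    continuous_finsetSum _ fun k _ => ω₂.continuous.comp (hcont _)⟩
  have hω₁ : ∀ x, ω₁ x = max 0 (2 * ω x - 1) := fun x => rfl
  have hω₂ : ∀ x, ω₂ x = min 1 (2 * ω x) := fun x => rfl
  have hg : ∀ x, g x = ∑ k ∈ Finset.range c, ω₁ ((h ^ (-(k : ℤ))) x) := fun x => rfl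
  have hG : ∀ x, G x = ∑ k ∈ Finset.range c, ω₂ ((h ^ (-(k : ℤ))) x) := fun x => rfl
  have hω₁0 : ∀ x, 0 ≤ ω₁ x := fun x => le_max_left _ _
  have hω₁1 : ∀ x, ω₁ x ≤ 1 := fun x => max_le zero_le_one (by linarith [h1 x])
  have hω₂0 : ∀ x, 0 ≤ ω₂ x := fun x => le_min zero_le_one (by linarith [h0 x])
  have hω₂1 : ∀ x, ω₂ x ≤ 1 := fun x => min_le_left _ _
  have huniq : ∀ x, ∀ i j : ℤ, |i - j| < L → ω ((h ^ i) x) ≠ 0 → ω ((h ^ j) x) ≠ 0 → i = j := by
    intro x i j hij hi hj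
    rw [abs_lt] at hij
    rcases lt_trichotomy i j with h3 | h3 | h3
    · have := hsep x i j h3 hi hj
      omega
    · exact h3
    · have := hsep x j i h3 hj hi
      omega
  have hg0 : ∀ x, 0 ≤ g x := by
    intro x
    rw [hg]
    exact Finset.sum_nonneg fun k _ => hω₁0 _
  have hg1 : ∀ x, g x ≤ 1 := by
    intro x
    rw [hg]
    by_cases hk : ∃ k ∈ Finset.range c, ω ((h ^ (-(k : ℤ))) x) ≠ 0
    · obtain ⟨k, hk, hk'⟩ := hk
      rw [Finset.sum_eq_single_of_mem k hk]
      · exact hω₁1 _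
      · intro l hl hlk
        have h3 : ω ((h ^ (-(l : ℤ))) x) = 0 := by
          by_contra h3
          rw [Finset.mem_range] at hk hl
          have := huniq x _ _ (by rw [abs_lt]; omega) h3 hk'
          exact hlk (by omega)
        rw [hω₁, h3]
        norm_num
    · push Not at hk
      rw [Finset.sum_eq_zero]
      · exact zero_le_one
      · intro l hl
        rw [hω₁, hk l hl]
        norm_num
  have hG0 : ∀ x, 0 ≤ G x := by
    intro x
    rw [hG]
    exact Finset.sum_nonneg fun k _ => hω₂0 _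
  have hgG : ∀ x, g x ≠ 0 → 1 ≤ G x := by
    intro x hx
    rw [hg] at hx
    obtain ⟨k, hk, hk'⟩ := Finset.exists_ne_zero_of_sum_ne_zero hx
    have h3 : 1 ≤ ω₂ ((h ^ (-(k : ℤ))) x) := by
      rw [hω₁] at hk'
      rw [hω₂]
      refine le_min le_rfl ?_
      by_contra h4
      push Not at h4
      exact hk' (max_eq_left (by linarith))
    exact h3.trans (Finset.single_le_sum (f := fun k : ℕ => ω₂ ((h ^ (-(k : ℤ))) x))
      (fun _ _ => hω₂0 _) hk)
  have hgone : ∀ x, ∀ k < c, ω ((h ^ (-(k : ℤ))) x) = 1 → g x = 1 := by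
    intro x k hk hx
    refine le_antisymm (hg1 x) ?_
    have h3 : ω₁ ((h ^ (-(k : ℤ))) x) = 1 := by
      rw [hω₁, hx]
      norm_num
    rw [← h3]
    exact Finset.single_le_sum (f := fun k : ℕ => ω₁ ((h ^ (-(k : ℤ))) x))
      (fun _ _ => hω₁0 _) (Finset.mem_range.2 hk)
  -- upper bound
  have hup : ∀ x (N : ℕ), ∑ j ∈ Finset.range N, G ((h ^ (j : ℤ)) x) ≤ c * (N / L + 1) := by
    intro x N
    simp only [hG]
    rw [Finset.sum_comm, ← nsmul_eq_mul]
    refine (Finset.sum_le_card_nsmul _ _ ((N : ℝ) / L + 1) fun k _ => ?_).trans_eq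
      (by rw [Finset.card_range])
    have h3 : ∀ j ∈ Finset.range N, ω₂ ((h ^ (-(k : ℤ))) ((h ^ (j : ℤ)) x)) ≤
        if ω ((h ^ ((j : ℤ) - k)) x) ≠ 0 then 1 else 0 := by
      intro j _
      rw [← zpow_add_apply', neg_add_eq_sub]
      split_ifs with h4
      · exact hω₂1 _
      · push Not at h4
        rw [hω₂, h4]
        norm_num
    refine (Finset.sum_le_sum h3).trans ?_
    rw [Finset.sum_boole]
    refine card_le_of_gap _ N L hL (fun i hi => ?_) fun i hi j hj hij => ?_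
    · exact Finset.mem_range.1 (Finset.mem_filter.1 hi).1
    · have := hsep x _ _ (by omega : (i : ℤ) - k < (j : ℤ) - k) (Finset.mem_filter.1 hi).2
        (Finset.mem_filter.1 hj).2
      omega
  -- lower bound
  have hlow : ∀ x (N : ℕ), (c : ℝ) * ((1 - δ / n) * N / L - C₀) - c ≤
      ((Finset.range N).filter fun j : ℕ => g ((h ^ (j : ℤ)) x) = 1).card := by
    intro x N
    have h3 : c * ((Finset.range N).filter fun i : ℕ => ω ((h ^ (i : ℤ)) x) = 1).card ≤
        ((Finset.range N).filter fun j : ℕ => g ((h ^ (j : ℤ)) x) = 1).card + c := by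
      calc c * ((Finset.range N).filter fun i : ℕ => ω ((h ^ (i : ℤ)) x) = 1).card
          = (((Finset.range N).filter fun i : ℕ => ω ((h ^ (i : ℤ)) x) = 1) ×ˢ
              Finset.range c).card := by
            rw [Finset.card_product, Finset.card_range, mul_comm]
        _ ≤ ((Finset.range (N + c)).filter fun j : ℕ => g ((h ^ (j : ℤ)) x) = 1).card := by
            refine Finset.card_le_card_of_injOn (fun p => p.1 + p.2) (fun p hp => ?_) ?_
            · simp only [Finset.coe_product, Finset.coe_filter, Finset.coe_range, Set.mem_prod,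
                Finset.mem_range, Set.mem_Iio] at hp
              obtain ⟨⟨hp1, hp2⟩, hp3⟩ := hp
              refine Finset.mem_coe.2 (Finset.mem_filter.2
                ⟨Finset.mem_range.2 (add_lt_add hp1 hp3), hgone _ p.2 hp3 ?_⟩)
              rw [← zpow_add_apply']
              push_cast
              rw [neg_add_eq_sub, add_sub_cancel_right]
              exact hp2
            · rintro ⟨i, k⟩ hp ⟨i', k'⟩ hp' heq
              simp only [Finset.coe_product, Finset.coe_filter, Finset.coe_range, Set.mem_prod,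
                Finset.mem_range, Set.mem_Iio] at hp hp'
              simp only at heq
              obtain ⟨⟨hp1, hp2⟩, hp3⟩ := hp
              obtain ⟨⟨hp1', hp2'⟩, hp3'⟩ := hp'
              have := huniq x i i' (by rw [abs_lt]; omega) (by rw [hp2]; exact one_ne_zero)
                (by rw [hp2']; exact one_ne_zero)
              have h5 : i = i' := by exact_mod_cast this
              subst h5
              have h6 : k = k' := by omega
              rw [h6]
        _ ≤ (((Finset.range N).filter fun j : ℕ => g ((h ^ (j : ℤ)) x) = 1) ∪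
              Finset.Ico N (N + c)).card := by
            refine Finset.card_le_card fun j hj => ?_
            rw [Finset.mem_filter, Finset.mem_range] at hj
            rw [Finset.mem_union, Finset.mem_filter, Finset.mem_range, Finset.mem_Ico]
            by_cases h4 : j < N
            · exact Or.inl ⟨h4, hj.2⟩
            · exact Or.inr ⟨by omega, hj.1⟩
        _ ≤ _ := by
            refine (Finset.card_union_le _ _).trans ?_
            rw [Nat.card_Ico]
            omega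
    have h4 := hC₀ x N
    have h5 : (c : ℝ) * ((Finset.range N).filter fun i : ℕ => ω ((h ^ (i : ℤ)) x) = 1).card ≤
        ((Finset.range N).filter fun j : ℕ => g ((h ^ (j : ℤ)) x) = 1).card + c := by
      exact_mod_cast h3
    have h6 : (c : ℝ) * ((1 - δ / n) * N / L - C₀) ≤
        c * ((Finset.range N).filter fun i : ℕ => ω ((h ^ (i : ℤ)) x) = 1).card := by gcongr
    linarith
  refine ⟨fun _ => g, fun _ => G, fun _ => hg0, fun _ => hg1, fun _ => hG0, fun _ => hgG,
    n * c * (|C₀| + 1), fun x N => ⟨?_, ?_⟩⟩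
  · simp only [Finset.sum_const, Finset.card_univ, Fintype.card_fin, nsmul_eq_mul]
    rw [← Finset.mul_sum]
    have h3 := hup x N
    have h4 : (n : ℝ) * ∑ j ∈ Finset.range N, G ((h ^ (j : ℤ)) x) ≤ n * (c * (N / L + 1)) := by
      gcongr
    have h5 : (n : ℝ) * (c * (N / L + 1)) = (n * c) * (N / L) + n * c := by ring
    have h6 : (n * c : ℝ) * (N / L) ≤ (s + 2 * δ) * L * (N / L) := by gcongr
    have h7 : (s + 2 * δ) * L * ((N : ℝ) / L) = (s + 2 * δ) * N := by
      field_simp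
    have h8 : (s + 2 * δ) * N ≤ s' * N := by
      rw [hδs]
      gcongr
      linarith
    have h9 : (n * c : ℝ) ≤ n * c * (|C₀| + 1) := by
      nlinarith [abs_nonneg C₀, (by positivity : (0 : ℝ) ≤ n * c)]
    linarith
  · have hcard : (Finset.univ.filter
        (fun p : Fin N × Fin n => g ((h ^ ((p.1 : ℕ) : ℤ)) x) = 1)).card =
        ((Finset.range N).filter fun j : ℕ => g ((h ^ (j : ℤ)) x) = 1).card * n := by
      have h3 : (Finset.univ.filter
          (fun p : Fin N × Fin n => g ((h ^ ((p.1 : ℕ) : ℤ)) x) = 1)) =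
          (Finset.univ.filter fun j : Fin N => g ((h ^ ((j : ℕ) : ℤ)) x) = 1) ×ˢ
            (Finset.univ : Finset (Fin n)) := by
        ext p
        simp
      rw [h3, Finset.card_product, Finset.card_univ, Fintype.card_fin]
      congr 1
      rw [Finset.card_filter, Finset.card_filter]
      exact Fin.sum_univ_eq_sum_range (fun j => if g ((h ^ (j : ℤ)) x) = 1 then 1 else 0) N
    rw [hcard]
    push_cast
    have h3 := hlow x N
    have h4 : ((c : ℝ) * ((1 - δ / n) * N / L - C₀) - c) * n ≤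
        ((Finset.range N).filter fun j : ℕ => g ((h ^ (j : ℤ)) x) = 1).card * n := by gcongr
    refine le_trans ?_ h4
    have h5 : ((c : ℝ) * ((1 - δ / n) * N / L - C₀) - c) * n =
        (n * c) * (N / L) - δ * c * (N / L) - n * c * (C₀ + 1) := by
      field_simp
      ring
    have h6 : (s + δ) * L * ((N : ℝ) / L) ≤ (n * c) * (N / L) := by gcongr
    have h7 : (s + δ) * L * ((N : ℝ) / L) = (s + δ) * N := by
      field_simp
    have h8 : δ * c * ((N : ℝ) / L) ≤ δ * L * (N / L) := by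
      gcongr
    have h9 : δ * L * ((N : ℝ) / L) = δ * N := by
      field_simp
    have h10 : n * c * (C₀ + 1) ≤ n * c * (|C₀| + 1) := by
      gcongr
      exact le_abs_self _
    rw [h5]
    linarith

end Vale.Agent.P093.H193
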