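import Vale.Agent.P093.H193.Fin
import Vale.Agent.P093.H598.MarkerDef

/-!
Comparison already fails for arbitrarily small functions.
-/

open Filter Topology Set
open scoped ENNReal ComplexOrder

namespace Vale.Agent.P093.H193

open Vale.Agent.P093.Hom

/-- the homological rate from a family of bounds -/
theorem rate_le {X : Type*} [MetricSpace X] [CompactSpace X] {h : X ≃ₜ X}
    {𝒰 : Set (Set X)} {κ L n n₁ : ℕ} (hκ : 1 ≤ κ) (hL : 0 < L) {ε s : ℝ}
    (hε : 0 ≤ ε) (hs0 : 0 < s) (hsb : s ≤ κ * ((n + 1 : ℝ) / L)) {C' : ℝ}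
    (hC' : ∀ N a D : ℕ, (2 * κ * a + 1 : ℝ) ≤ s * N - C' →
      (n + 1) * (N / L : ℝ) + (n₁ + 1) * (ε * N) + C' ≤ D + a + 1 →
      HomOrderLE (iterCover h 𝒰 N) D) :
    (limsup (fun N : ℕ => (homOrder (iterCover h 𝒰 N) : ℝ≥0∞) / N) atTop).toReal ≤
      (n + 1) / L + (n₁ + 1) * ε - s / (2 * κ) := by
  have hκ' : (1 : ℝ) ≤ κ := Nat.one_le_cast.2 hκ
  have hL' : (0 : ℝ) < L := Nat.cast_pos.2 hL
  have hn10 : (0 : ℝ) ≤ n₁ := Nat.cast_nonneg n₁
  set β : ℝ := (n + 1) / L + (n₁ + 1) * ε - s / (2 * κ) with hβ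
  have hy0 : (0 : ℝ) ≤ (n + 1) / L := by positivity
  have hβ0 : 0 ≤ β := by
    have h1 : s / (2 * κ) ≤ (n + 1) / L := by
      rw [div_le_iff₀ (by positivity)]
      have h3 : 0 ≤ κ * ((n + 1) / L : ℝ) := by positivity
      linarith
    have h2 : 0 ≤ (n₁ + 1) * ε := by positivity
    rw [hβ]
    linarith
  have hz := fi_limsup_le (f := fun N => homOrder (iterCover h 𝒰 N)) (β := β)
    (C := 2 * |C'| + 2) hβ0 (N₀ := ⌈(|C'| + 1) / s⌉₊) fun N hN => by
      have hN1 : |C'| + 1 ≤ s * N := by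
        have h1 := Nat.ceil_le.1 hN
        rw [div_le_iff₀ hs0] at h1
        linarith
      have hC1 := le_abs_self C'
      have hC2 := neg_abs_le C'
      have hx0 : 0 ≤ (s * N - C' - 1) / (2 * κ) := div_nonneg (by linarith) (by positivity)
      have ha := Nat.floor_le hx0
      have ha' := Nat.lt_floor_add_one ((s * N - C' - 1) / (2 * κ))
      set a := ⌊(s * N - C' - 1) / (2 * κ)⌋₊
      have h2a : (2 * κ * a + 1 : ℝ) ≤ s * N - C' := by
        rw [le_div_iff₀ (by positivity)] at ha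
        linarith
      set x : ℝ := (n + 1) * (N / L : ℝ) + (n₁ + 1) * (ε * N) + C' - a - 1 with hx
      have hD := Nat.le_ceil x
      have hle : homOrder (iterCover h 𝒰 N) ≤ ⌈x⌉₊ :=
        Nat.sInf_le (hC' N a ⌈x⌉₊ h2a (by linarith))
      have hDx : (⌈x⌉₊ : ℝ) ≤ β * N + (2 * |C'| + 2) := by
        have hxb : x ≤ β * N + (2 * |C'| + 1) := by
          have e1 : (s * N - C' - 1) / (2 * κ) = s / (2 * κ) * N - (C' + 1) / (2 * κ) := by
            ring
          have e2 : (C' + 1) / (2 * κ) ≤ |C'| + 1 := by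
            rw [div_le_iff₀ (by positivity)]
            have h3 : (|C'| + 1) * 1 ≤ (|C'| + 1) * (2 * κ) :=
              mul_le_mul_of_nonneg_left (by linarith) (by positivity)
            linarith
          have e3 : (n + 1) * (N / L : ℝ) = (n + 1) / L * N := by ring
          rw [e1] at ha'
          rw [hx, e3, hβ]
          linarith
        rcases le_or_gt 0 x with h0 | h0
        · have := Nat.ceil_lt_add_one h0
          linarith
        · rw [Nat.ceil_eq_zero.2 h0.le]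
          have : 0 ≤ β * N := by positivity
          have := abs_nonneg C'
          push_cast
          linarith
      exact (Nat.cast_le.2 hle).trans hDx
  exact ENNReal.toReal_le_of_le_ofReal hβ0 hz

/-- one step with a small parameter `s` -/
theorem small_step {X : Type*} [MetricSpace X] [CompactSpace X] [Nonempty X]
    {A : Type*} [CStarAlgebra A] [PartialOrder A] [StarOrderedRing A] {h : X ≃ₜ X}
    (hm : HasMarkers h) {π : C(X, ℂ) →⋆ₐ[ℂ] A} {u : A} (hA : IsCovariantPair h π u)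
    {n₂ : ℕ} (hn₂ : 1 ≤ n₂) {s₀ r : ℝ} (hr0 : 0 ≤ r) (hs₀n : s₀ ≤ n₂) (hcmp : CmpHyp π n₂ s₀ r)
    {𝒰 : Set (Set X)} (h𝒰 : IsFinOpenCover 𝒰) {κ : ℕ} (hκ : 1 ≤ κ) {s : ℝ} (hs0 : 0 < s)
    (hss : s < s₀) :
    (κ / (2 * κ + 1) : ℝ) *
        (limsup (fun N : ℕ => (coverDim (iterCover h 𝒰 N) : ℝ≥0∞) / N) atTop).toReal ≤ s + r ∨
      (limsup (fun N : ℕ => (homOrder (iterCover h 𝒰 N) : ℝ≥0∞) / N) atTop).toReal ≤
        (limsup (fun N : ℕ => (coverDim (iterCover h 𝒰 N) : ℝ≥0∞) / N) atTop).toReal -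
          s / (2 * κ) := by
  set δ' := limsup (fun N : ℕ => (coverDim (iterCover h 𝒰 N) : ℝ≥0∞) / N) atTop with hδ'
  have hδfin : δ' ≠ ∞ := limsup_coverDim_ne_top h h𝒰
  have hδe : δ' = ENNReal.ofReal δ'.toReal := (ENNReal.ofReal_toReal hδfin).symm
  have hκ' : (1 : ℝ) ≤ κ := Nat.one_le_cast.2 hκ
  set z := (limsup (fun N : ℕ => (homOrder (iterCover h 𝒰 N) : ℝ≥0∞) / N) atTop).toReal
  set δ := δ'.toReal
  have hδ0 : 0 ≤ δ := ENNReal.toReal_nonneg
  set c : ℝ := κ / (2 * κ + 1) with hc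
  have hc0 : 0 < c := by positivity
  have hc1 : c ≤ 1 := by
    rw [hc, div_le_one (by positivity)]
    linarith
  rcases le_or_gt (c * δ) (s + r) with hle | hgt
  · exact Or.inl hle
  right
  refine le_of_forall_pos_le_add fun θ hθ => ?_
  -- the gap
  obtain ⟨γ, hγ⟩ : ∃ γ : ℝ, γ = c * δ - (s + r) := ⟨_, rfl⟩
  have hγ0 : 0 < γ := by rw [hγ]; linarith
  obtain ⟨η, hη⟩ : ∃ η : ℝ, η = min (θ / 4) (γ / 8) := ⟨_, rfl⟩
  have hη0 : 0 < η := by rw [hη]; exact lt_min (by linarith) (by linarith)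
  have hη1 : η ≤ θ / 4 := by rw [hη]; exact min_le_left _ _
  have hη2 : η ≤ γ / 8 := by rw [hη]; exact min_le_right _ _
  have h1 : ∃ᶠ N : ℕ in atTop, δ - η ≤ (coverDim (iterCover h 𝒰 N) : ℝ) / N := by
    rcases lt_or_ge (δ - η) 0 with h0 | h0
    · exact Frequently.of_forall fun N => h0.le.trans (by positivity)
    · have hlt : ENNReal.ofReal (δ - η) < δ' := by
        rw [hδe]
        exact (ENNReal.ofReal_lt_ofReal_iff (by linarith)).2 (by linarith)
      refine ((frequently_lt_of_lt_limsup (by isBoundedDefault) hlt).and_eventually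
        (eventually_gt_atTop 0)).mono fun N hN => ?_
      have h2 := ENNReal.toReal_mono (ENNReal.div_ne_top (ENNReal.natCast_ne_top _)
        (Nat.cast_ne_zero.2 hN.2.ne')) hN.1.le
      rw [ENNReal.toReal_ofReal h0, ENNReal.toReal_div, ENNReal.toReal_natCast,
        ENNReal.toReal_natCast] at h2
      exact h2
  have h2 : ∀ᶠ N : ℕ in atTop, (coverDim (iterCover h 𝒰 N) : ℝ) / N ≤ δ + η := by
    have hlt : δ' < ENNReal.ofReal (δ + η) := by
      rw [hδe]
      exact (ENNReal.ofReal_lt_ofReal_iff (by linarith)).2 (by linarith)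
    refine (eventually_lt_of_limsup_lt hlt (by isBoundedDefault)).mono fun N hN => ?_
    have h3 := ENNReal.toReal_mono ENNReal.ofReal_ne_top hN.le
    rw [ENNReal.toReal_ofReal (by linarith), ENNReal.toReal_div, ENNReal.toReal_natCast,
      ENNReal.toReal_natCast] at h3
    exact h3
  obtain ⟨L, hL1, hL2, hL3, hL0⟩ := (h1.and_eventually (h2.and
    ((eventually_ge_atTop ⌈κ / η⌉₊).and (eventually_gt_atTop 0)))).exists
  have hL' : (0 : ℝ) < L := Nat.cast_pos.2 hL0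
  have hL4 : (κ / L : ℝ) ≤ η := by
    have h3 := Nat.ceil_le.1 hL3
    rw [div_le_iff₀ hη0] at h3
    rw [div_le_iff₀ hL']
    linarith
  have hL5 : (1 / L : ℝ) ≤ κ / L := div_le_div_of_nonneg_right hκ' hL'.le
  set n := coverDim (iterCover h 𝒰 L) with hn
  set n₁ := coverDim 𝒰 with hn₁
  set t := (n + 1) / (2 * κ + 1) with ht
  have hn10 : (0 : ℝ) ≤ n₁ := Nat.cast_nonneg n₁
  have htn' : (t : ℝ) ≤ n + 1 := by exact_mod_cast Nat.div_le_self (n + 1) (2 * κ + 1)
  have htn : ((n + 1 : ℕ) : ℝ) < ((2 * κ + 1) * (t + 1) : ℕ) :=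
    Nat.cast_lt.2 (Nat.lt_mul_div_succ (n + 1) (by omega))
  push_cast at htn
  -- `κ t / L ≥ c (n+1)/L - κ/L`
  have hb : c * ((n + 1) / L) - κ / L ≤ κ * (t : ℝ) / L := by
    have e1 : c * ((n + 1) / L) - κ / L = κ * ((n + 1) / (2 * κ + 1) - 1) / L := by
      rw [hc]
      ring
    rw [e1]
    refine div_le_div_of_nonneg_right (mul_le_mul_of_nonneg_left ?_ (by positivity)) hL'.le
    rw [sub_le_iff_le_add, div_le_iff₀ (by positivity)]
    linarith
  have hy : ((n : ℝ) + 1) / L = n / L + 1 / L := by ring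
  have h1L : (0 : ℝ) ≤ 1 / L := by positivity
  obtain ⟨b, hbd⟩ : ∃ b : ℝ, b = κ * (t : ℝ) / L := ⟨_, rfl⟩
  have hb0 : 0 ≤ b := by rw [hbd]; positivity
  have hbl : s + r + γ / 2 ≤ b := by
    have h4 : c * (δ - η) ≤ c * ((n + 1) / L) := by
      refine mul_le_mul_of_nonneg_left ?_ hc0.le
      rw [hy]
      linarith
    have h5 : c * η ≤ η := by
      calc c * η ≤ 1 * η := mul_le_mul_of_nonneg_right hc1 hη0.le
        _ = η := one_mul η
    rw [hbd]
    have h6 : c * (δ - η) = c * δ - c * η := by ring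
    linarith
  have hbn : b ≤ κ * ((n + 1) / L) := by
    rw [hbd, mul_div_assoc]
    exact mul_le_mul_of_nonneg_left (div_le_div_of_nonneg_right htn' hL'.le) (by positivity)
  obtain ⟨ε, hε0, hε1, hε2⟩ : ∃ ε : ℝ, 0 < ε ∧ ε * b ≤ γ / 4 ∧ (n₁ + 1) * ε ≤ η := by
    refine ⟨min (γ / (4 * (b + 1))) (η / (n₁ + 1)), lt_min (by positivity) (by positivity),
      ?_, ?_⟩
    · have h3 : min (γ / (4 * (b + 1))) (η / (n₁ + 1)) ≤ γ / (4 * (b + 1)) := min_le_left _ _
      have h4 : min (γ / (4 * (b + 1))) (η / (n₁ + 1)) * b ≤ γ / (4 * (b + 1)) * b :=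
        mul_le_mul_of_nonneg_right h3 hb0
      have h5 : γ / (4 * (b + 1)) * b ≤ γ / 4 := by
        rw [div_mul_eq_mul_div, div_le_div_iff₀ (by positivity) (by norm_num)]
        nlinarith
      linarith
    · have h3 : min (γ / (4 * (b + 1))) (η / (n₁ + 1)) ≤ η / (n₁ + 1) := min_le_right _ _
      rw [le_div_iff₀ (by positivity)] at h3
      linarith
  have hs1 : s + r < κ * ((n + 1) / (2 * κ + 1) : ℕ) * (1 - ε) / L := by
    have e : (κ * ((n + 1) / (2 * κ + 1) : ℕ) * (1 - ε) / L : ℝ) = b * (1 - ε) := by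
      rw [hbd, ht]
      ring
    rw [e]
    linarith
  obtain ⟨C', hC'⟩ := dyn_coverC hm hA hn₂ hs₀n hcmp h𝒰 hκ hL0 hε0 hs0.le hss hs1
  rw [← hn, ← hn₁] at hC'
  have h7 := rate_le hκ hL0 hε0.le hs0 (by linarith) hC'
  change z ≤ _ at h7
  have h8 : ((n : ℝ) + 1) / L ≤ δ + 2 * η := by
    rw [hy]
    linarith
  linarith

/-- **Small functions.** If `mdim_ℤ = mdim < ∞` then comparison of small functions with a
constant `r` forces `mdim ≤ 2 r`. -/
theorem small_main {X : Type*} [MetricSpace X] [CompactSpace X] [Nonempty X]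
    {A : Type*} [CStarAlgebra A] [PartialOrder A] [StarOrderedRing A] {h : X ≃ₜ X}
    (hm : HasMarkers h) {π : C(X, ℂ) →⋆ₐ[ℂ] A} {u : A} (hA : IsCovariantPair h π u)
    {n₂ : ℕ} (hn₂ : 1 ≤ n₂) {s₀ r : ℝ} (hs₀ : 0 < s₀) (hr0 : 0 ≤ r) (hs₀n : s₀ ≤ n₂)
    (hcmp : CmpHyp π n₂ s₀ r) (hfin : meanDim h ≠ ∞) (heq : homMeanDim h = meanDim h) :
    (meanDim h).toReal ≤ 2 * r := by
  by_contra hcon
  push Not at hcon
  obtain ⟨μ, hμ⟩ : ∃ μ : ℝ, μ = (meanDim h).toReal := ⟨_, rfl⟩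
  rw [← hμ] at hcon
  have hμ0 : 0 < μ := by linarith
  have hμe : meanDim h = ENNReal.ofReal μ := by rw [hμ, ENNReal.ofReal_toReal hfin]
  obtain ⟨κ, hκ⟩ := exists_nat_gt (μ / (μ - 2 * r))
  rw [div_lt_iff₀ (by linarith)] at hκ
  have hκ1 : 1 ≤ κ := by
    rcases Nat.eq_zero_or_pos κ with rfl | h1
    · simp only [Nat.cast_zero, zero_mul] at hκ
      linarith
    · exact h1
  have hκ' : (1 : ℝ) ≤ κ := Nat.one_le_cast.2 hκ1
  set c : ℝ := κ / (2 * κ + 1) with hc
  have hc0 : 0 < c := by positivity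
  have hc1 : c ≤ 1 := by
    rw [hc, div_le_one (by positivity)]
    linarith
  -- the gap `c μ > r`
  have hgap : r < c * μ := by
    rw [hc, div_mul_eq_mul_div, lt_div_iff₀ (by positivity)]
    nlinarith
  obtain ⟨s, hs0, hs1, hs2⟩ : ∃ s : ℝ, 0 < s ∧ s < s₀ ∧ 4 * s ≤ c * μ - r := by
    refine ⟨min (s₀ / 2) ((c * μ - r) / 4), lt_min (by linarith) (by linarith), ?_, ?_⟩
    · have := min_le_left (s₀ / 2) ((c * μ - r) / 4)
      linarith
    · have := min_le_right (s₀ / 2) ((c * μ - r) / 4)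
      linarith
  obtain ⟨η, hη⟩ : ∃ η : ℝ, η = s / (4 * κ) := ⟨_, rfl⟩
  have hη0 : 0 < η := by rw [hη]; positivity
  have hηs : s / (2 * κ) = 2 * η := by
    rw [hη]
    field_simp
    ring
  have hηs' : η ≤ s := by
    rw [hη, div_le_iff₀ (by positivity)]
    nlinarith
  -- a cover with large homological rate
  have hlt : ENNReal.ofReal (μ - η) < homMeanDim h := by
    rw [heq, hμe]
    exact (ENNReal.ofReal_lt_ofReal_iff hμ0).2 (by linarith)
  obtain ⟨𝒰, h𝒰⟩ := lt_iSup_iff.1 hlt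
  have hzδ := fi_limsup_le_limsup h 𝒰.2
  have hδμ : limsup (fun N : ℕ => (coverDim (iterCover h 𝒰.1 N) : ℝ≥0∞) / N) atTop ≤ meanDim h :=
    le_iSup (fun 𝒱 : {𝒱 : Set (Set X) // IsFinOpenCover 𝒱} =>
      limsup (fun N : ℕ => (coverDim (iterCover h 𝒱.1 N) : ℝ≥0∞) / N) atTop) 𝒰
  have hδfin := ne_top_of_le_ne_top hfin hδμ
  have hzfin := ne_top_of_le_ne_top hδfin hzδ
  have h1 := ENNReal.toReal_mono hδfin hzδ
  have h2 := ENNReal.toReal_mono hfin hδμ
  have h3 : μ - η ≤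
      (limsup (fun N : ℕ => (homOrder (iterCover h 𝒰.1 N) : ℝ≥0∞) / N) atTop).toReal := by
    rcases le_or_gt (μ - η) 0 with h0 | h0
    · exact h0.trans ENNReal.toReal_nonneg
    · have h4 := ENNReal.toReal_mono hzfin h𝒰.le
      rwa [ENNReal.toReal_ofReal h0.le] at h4
  rw [← hμ] at h2
  rcases small_step hm hA hn₂ hr0 hs₀n hcmp 𝒰.2 hκ1 hs0 hs1 with h5 | h5
  · change c * _ ≤ _ at h5
    have h6 : c * (μ - η) ≤
        c * (limsup (fun N : ℕ => (coverDim (iterCover h 𝒰.1 N) : ℝ≥0∞) / N) atTop).toReal :=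
      mul_le_mul_of_nonneg_left (h3.trans h1) hc0.le
    have h7 : c * η ≤ η := by
      calc c * η ≤ 1 * η := mul_le_mul_of_nonneg_right hc1 hη0.le
        _ = η := one_mul η
    have h8 : c * (μ - η) = c * μ - c * η := by ring
    linarith
  · rw [hηs] at h5
    linarith

theorem funMat_eq {X : Type*} [TopologicalSpace X] [CompactSpace X] {A : Type*} [CStarAlgebra A]
    [PartialOrder A] [StarOrderedRing A] (π : C(X, ℂ) →⋆ₐ[ℂ] A) (g : C(X, ℝ)) :
    diagM π (fun _ : Fin 1 => cf g) = funMat π g := by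
  ext i j
  have hij : i = j := Subsingleton.elim _ _
  change (if i = j then π (cf g) else 0) = π _
  rw [if_pos hij]
  rfl

theorem hasMarkers_of {X : Type*} [TopologicalSpace X] {h : X ≃ₜ X} (hm : MarkerProperty h) :
    HasMarkers h := by
  intro n
  obtain ⟨V, hVo, hV, hc⟩ := hm n
  refine ⟨V, hVo, fun k hk0 hkn x hx hx' => ?_, hc⟩
  refine hV k (by omega) (by omega) x hx ?_
  rw [zpow_natCast]
  exact hx'

/-- **Small functions**, with witnesses. -/
theorem small_witness {X : Type*} [TopologicalSpace X] [CompactSpace X]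
    [TopologicalSpace.MetrizableSpace X] [Nonempty X]
    {A : Type*} [CStarAlgebra A] [PartialOrder A] [StarOrderedRing A] {h : X ≃ₜ X}
    (hm : HasMarkers h) (hfin : meanDim h ≠ ∞) (heq : homMeanDim h = meanDim h)
    {p : C(X, ℂ) → A} (hA : IsCrossedVia h p) {r ε : ℝ}
    (hr : ENNReal.ofReal r < meanDim h / 2) (hε : 0 < ε) :
    ∃ (g : C(X, ℝ)) (m : ℕ) (b : Fin m → Fin m → C(X, ℂ)),
      (∀ x, 0 ≤ g x ∧ g x ≤ 1) ∧ IsPosContraction b ∧
      (∀ τ : TracialState A, dTau τ (funMat p g) < ε ∧ r < dTau τ (matMat p b)) ∧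
      ¬ CuntzLE (funMat p g) (matMat p b) := by
  let _ := TopologicalSpace.metrizableSpaceMetric X
  obtain ⟨π, u, rfl, hA⟩ := hA
  by_contra hcon
  push Not at hcon
  have hr' : (max r 0) < (meanDim h).toReal / 2 := by
    have h1 := (ENNReal.toReal_lt_toReal ENNReal.ofReal_ne_top
      (ENNReal.div_ne_top hfin two_ne_zero)).2 hr
    rwa [ENNReal.toReal_ofReal', ENNReal.toReal_div, ENNReal.toReal_ofNat] at h1
  have hcmp : CmpHyp π 1 (min ε 1) (max r 0) := by
    intro m g β hg0 hg1 hβ hβ1 h1 h2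
    obtain ⟨g₀, hg₀⟩ : ∃ g₀, g₀ = g 0 := ⟨_, rfl⟩
    have e0 : g = fun _ => g₀ := by
      funext l
      rw [hg₀, Subsingleton.elim l 0]
    subst e0
    have e1 := funMat_eq π g₀
    rw [e1] at h1 h2 ⊢
    have hnn : ∀ τ : TracialState A, 0 ≤ dTau τ (funMat π g₀) := by
      intro τ
      have h3 := traceEval_le_dTau τ (diagM_nonneg π (fun _ : Fin 1 => g₀) hg0)
        (diagM_le_one π (fun _ : Fin 1 => g₀) hg1)
      rw [e1] at h3
      refine le_trans ?_ h3
      have h4 := traceEval_diag' π τ (fun _ : Fin 1 => cf g₀)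
      rw [e1] at h4
      rw [h4]
      have h5 := trace_fun_mono' π τ 0 g₀ (fun x => hg0 0 x)
      have h6 : cf (0 : C(X, ℝ)) = 0 := by
        ext x
        simp [cf_apply]
      rw [h6, map_zero, map_zero, Complex.zero_re] at h5
      simpa using h5
    exact hcon g₀ m β (fun x => ⟨hg0 0 x, hg1 0 x⟩) (fun x => ⟨hβ x, hβ1 x⟩)
      (fun τ => ⟨(h1 τ).trans_le (min_le_left _ _), by
        have h3 := h2 τ
        have h4 := hnn τ
        have h5 := le_max_left r 0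
        change r < dTau τ (fullM π β)
        linarith⟩)
  have h1 := small_main hm hA le_rfl (s₀ := min ε 1) (lt_min hε one_pos) (le_max_right r 0)
    (by simp) hcmp hfin heq
  linarith

theorem IsCrossedVia.isCrossedProduct {X : Type*} [TopologicalSpace X] [CompactSpace X]
    {A : Type*} [CStarAlgebra A] {h : X ≃ₜ X} {p : C(X, ℂ) → A} (hA : IsCrossedVia h p) :
    IsCrossedProduct h A := by
  obtain ⟨π, u, rfl, hA⟩ := hA
  exact ⟨π, u, hA⟩

end Vale.Agent.P093.H193
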